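import Vale.Agent.P267.H399.Calc2
import Vale.Agent.P281.MF.Hol

/-! P267 / H399: relation with `ContMDiff`, holomorphic functions, compositions. -/

set_option linter.unusedVariables false
set_option linter.unusedSectionVars false
set_option linter.unusedSimpArgs false

open scoped Manifold ContDiff ComplexConjugate Matrix ComplexOrder
open MeasureTheory Set Filter Topology

noncomputable section

namespace Vale.Agent.P267.FL

variable {X : Type*} [TopologicalSpace X] [ChartedSpace C2 X]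
variable {V : Type*} [NormedAddCommGroup V] [NormedSpace ℂ V]
variable {W : Type*} [NormedAddCommGroup W] [NormedSpace ℂ W]

/-! ### the real manifold -/

section real

variable [IsManifold 𝓘(ℂ, C2) ω X]

/-- the underlying real analytic manifold -/
theorem isManifold_real : IsManifold 𝓘(ℝ, C2) ω X := by
  refine isManifold_of_contDiffOn 𝓘(ℝ, C2) ω X fun e e' he he' => ?_
  have h : ContDiffOn ℝ ω ((e' : X → C2) ∘ (e.symm : C2 → X))
      (e.target ∩ e.symm ⁻¹' e'.source) := (trans_contDiffOn he he').restrict_scalars ℝ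
  simpa using h

theorem isManifold_real' (n : WithTop ℕ∞) : IsManifold 𝓘(ℝ, C2) n X := by
  have := isManifold_real (X := X)
  exact IsManifold.of_le (n := ω) le_top

theorem at0_zero_iff {n : WithTop ℕ∞} {s : X → V} {x : X} :
    At0 n 0 s x ↔ ContDiffAt ℝ n (s ∘ (chartAt C2 x).symm) (chartAt C2 x x) := by
  rw [At0, LB.loc0_zero]

theorem At0.continuousAt {n : WithTop ℕ∞} {s : X → V} {x : X} (h : At0 n 0 s x) :
    ContinuousAt s x := by
  rw [at0_zero_iff] at h
  have h1 := h.continuousAt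
  have h2 : ContinuousAt ((s ∘ (chartAt C2 x).symm) ∘ chartAt C2 x) x :=
    ContinuousAt.comp h1 ((chartAt C2 x).continuousAt (mem_chart_source C2 x))
  refine h2.congr ?_
  filter_upwards [(chartAt C2 x).open_source.mem_nhds (mem_chart_source C2 x)] with y hy
  simp [(chartAt C2 x).left_inv hy]

/-- smoothness in the sense of Mathlib -/
theorem contMDiffAt_iff_at0 {n : WithTop ℕ∞} {s : X → V} {x : X} :
    ContMDiffAt 𝓘(ℝ, C2) 𝓘(ℝ, V) n s x ↔ At0 n 0 s x := by
  rw [contMDiffAt_iff, at0_zero_iff]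
  simp only [extChartAt, OpenPartialHomeomorph.extend, chartAt_self_eq,
    OpenPartialHomeomorph.refl_partialEquiv, PartialEquiv.refl_trans,
    modelWithCornersSelf_partialEquiv, PartialEquiv.trans_refl, PartialEquiv.refl_coe,
    Function.id_comp, OpenPartialHomeomorph.toFun_eq_coe, modelWithCornersSelf_coe, range_id,
    contDiffWithinAt_univ]
  constructor
  · rintro ⟨_, h⟩
    exact h
  · intro h
    exact ⟨At0.continuousAt (at0_zero_iff.2 h), h⟩

theorem contMDiff_iff_reg0 {n : WithTop ℕ∞} {s : X → V} :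
    ContMDiff 𝓘(ℝ, C2) 𝓘(ℝ, V) n s ↔ Reg0 n 0 s := by
  rw [reg0_iff_at]
  exact forall_congr' fun x => contMDiffAt_iff_at0

theorem Reg0.continuous {n : WithTop ℕ∞} {s : X → V} (h : Reg0 n 0 s) : Continuous s :=
  continuous_iff_continuousAt.2 fun x => (h.at x).continuousAt

/-- composition with a smooth map -/
theorem At0.comp {n : WithTop ℕ∞} {s : X → V} {x : X} (h : At0 n 0 s x) {g : V → W}
    (hg : ContDiffAt ℝ n g (s x)) : At0 n 0 (fun y => g (s y)) x := by
  rw [at0_zero_iff] at h ⊢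
  have hg' : ContDiffAt ℝ n g ((s ∘ (chartAt C2 x).symm) (chartAt C2 x x)) := by
    simpa [(chartAt C2 x).left_inv (mem_chart_source C2 x)] using hg
  exact ContDiffAt.comp (g := g) (chartAt C2 x x) hg' h

/-- chain rule with a holomorphic outer map -/
theorem dbar0_comp_hol {s : X → V} {x : X} (h : At0 1 0 s x) {g : V → W}
    (hg : DifferentiableAt ℂ g (s x)) (i : Fin 2) :
    dbar0 0 (fun y => g (s y)) x i = fderiv ℂ g (s x) (dbar0 0 s x i) := by
  have hx := mem_chart_source C2 x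
  have hs := h.diff le_rfl
  rw [LB.loc0_zero] at hs
  have hsx : (s ∘ (chartAt C2 x).symm) (chartAt C2 x x) = s x := by
    simp [(chartAt C2 x).left_inv hx]
  have hg' : DifferentiableAt ℂ g ((s ∘ (chartAt C2 x).symm) (chartAt C2 x x)) := by rwa [hsx]
  have h1 : fderiv ℝ (fun z => g ((s ∘ (chartAt C2 x).symm) z)) (chartAt C2 x x) =
      ((fderiv ℂ g (s x)).restrictScalars ℝ).comp
        (fderiv ℝ (s ∘ (chartAt C2 x).symm) (chartAt C2 x x)) := by
    have h2 := (hg'.hasFDerivAt.restrictScalars ℝ).comp (chartAt C2 x x) hs.hasFDerivAt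
    rw [hsx] at h2
    exact h2.fderiv
  have h3 : loc0 0 (chartAt C2 x) (fun y => g (s y)) =
      fun z => g ((s ∘ (chartAt C2 x).symm) z) := by
    rw [LB.loc0_zero]
    rfl
  simp only [dbar0, h3, dzb, h1, LB.loc0_zero, ContinuousLinearMap.comp_apply,
    ContinuousLinearMap.coe_restrictScalars', map_smul, map_add]

theorem dbar0_comp_deriv {s : X → ℂ} {x : X} (h : At0 1 0 s x) {g : ℂ → ℂ}
    (hg : DifferentiableAt ℂ g (s x)) (i : Fin 2) :
    dbar0 0 (fun y => g (s y)) x i = deriv g (s x) * dbar0 0 s x i := by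
  rw [dbar0_comp_hol h hg, fderiv_eq_smul_deriv, smul_eq_mul, mul_comm]

theorem At0.cexp {n : WithTop ℕ∞} {s : X → ℂ} {x : X} (h : At0 n 0 s x) :
    At0 n 0 (fun y => Complex.exp (s y)) x :=
  h.comp (g := Complex.exp) Complex.contDiff_exp.contDiffAt

theorem dbar0_cexp {s : X → ℂ} {x : X} (h : At0 1 0 s x) (i : Fin 2) :
    dbar0 0 (fun y => Complex.exp (s y)) x i = Complex.exp (s x) * dbar0 0 s x i := by
  rw [dbar0_comp_deriv h Complex.differentiableAt_exp, Complex.deriv_exp]

/-- complex conjugation (weight `0`) -/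
theorem At0.conj {n : WithTop ℕ∞} {s : X → ℂ} {x : X} (h : At0 n 0 s x) :
    At0 n 0 (fun y => conj (s y)) x :=
  h.comp (g := fun w : ℂ => conj w) Complex.conjCLE.contDiff.contDiffAt

/-- inverse, weight `κ ↦ -κ` -/
theorem loc0_inv {κ : ℤ} {e : Ch X} (f : X → ℂ) (z : C2) :
    loc0 (-κ) e (fun y => (f y)⁻¹) z = (loc0 κ e f z)⁻¹ := by
  simp [loc0, mul_inv, zpow_neg, mul_comm]

theorem At0.inv {n : WithTop ℕ∞} {κ : ℤ} {f : X → ℂ} {x : X} (h : At0 n κ f x) (hx : f x ≠ 0) :
    At0 n (-κ) (fun y => (f y)⁻¹) x := by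
  have h1 : loc0 (-κ) (chartAt C2 x) (fun y => (f y)⁻¹) =
      fun z => (loc0 κ (chartAt C2 x) f z)⁻¹ := by
    funext z
    exact loc0_inv f z
  rw [At0, h1]
  refine ContDiffAt.inv h ?_
  rwa [loc0_chartAt]

theorem At0.inv0 {n : WithTop ℕ∞} {f : X → ℂ} {x : X} (h : At0 n 0 f x) (hx : f x ≠ 0) :
    At0 n 0 (fun y => (f y)⁻¹) x := by
  simpa using h.inv hx

theorem dbar0_inv {κ : ℤ} {f : X → ℂ} {x : X} (h : At0 1 κ f x) (hx : f x ≠ 0) (i : Fin 2) :
    dbar0 (-κ) (fun y => (f y)⁻¹) x i = -(dbar0 κ f x i) / f x ^ 2 := by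
  have h2 := dbar0_mul' (h.inv hx) h i
  have h3 : dbar0 (-κ + κ) (fun y => (f y)⁻¹ * f y) x i = 0 := by
    have hne : ∀ᶠ y in 𝓝 x, (f y)⁻¹ * f y = 1 := by
      have hd : At0 1 κ f x := h
      have hc : ContinuousAt (loc0 κ (chartAt C2 x) f) (chartAt C2 x x) := hd.diff le_rfl |>.continuousAt
      have h0 : loc0 κ (chartAt C2 x) f (chartAt C2 x x) ≠ 0 := by rwa [loc0_chartAt]
      have h5 := hc.eventually_ne h0
      have hxs := mem_chart_source C2 x
      filter_upwards [((chartAt C2 x).continuousAt hxs).eventually h5,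
        (chartAt C2 x).open_source.mem_nhds hxs] with y hy hys
      rw [loc0_source hys] at hy
      have : f y ≠ 0 := fun h0 => hy (by rw [h0, smul_zero])
      exact inv_mul_cancel₀ this
    have h6 : (fun y => (f y)⁻¹ * f y) =ᶠ[𝓝 x] fun _ => (1 : ℂ) := hne
    rw [neg_add_cancel, dbar0_congr h6, dbar0_const]
    rfl
  rw [h3] at h2
  field_simp
  field_simp at h2
  linear_combination -h2

end real

/-! ### holomorphic functions and sections -/

section hol

variable [IsManifold 𝓘(ℂ, C2) ω X]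

/-- holomorphic near `x` -/
def HolAt (κ : ℤ) (s : X → V) (x : X) : Prop :=
  AnalyticAt ℂ (loc0 κ (chartAt C2 x) s) (chartAt C2 x x)

theorem loc0_analyticAt_change {κ : ℤ} {e e' : Ch X} (he : e ∈ atlas C2 X)
    (he' : e' ∈ atlas C2 X) {x : X} (hx : x ∈ e.source) (hx' : x ∈ e'.source) {s : X → V}
    (h : AnalyticAt ℂ (loc0 κ e' s) (e' x)) : AnalyticAt ℂ (loc0 κ e s) (e x) := by
  have h1 : loc0 κ e s =ᶠ[𝓝 (e x)] fun z => (jacM e e' (e.symm z)).det ^ κ •
      loc0 κ e' s (e' (e.symm z)) := by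
    filter_upwards [(isOpen_trans e e').mem_nhds (mem_trans hx hx')] with z hz
    have := loc0_change (κ := κ) he he' (e.map_target hz.1) hz.2 s
    rwa [e.right_inv hz.1] at this
  refine AnalyticAt.congr ?_ h1.symm
  have h2 := detz_analyticAt he he' hx hx' κ
  have h3 := trans_analyticAt he he' hx hx'
  refine h2.smul (AnalyticAt.fun_comp (g := loc0 κ e' s) ?_ h3)
  simpa only [e.left_inv hx] using h

theorem HolAt.chart {κ : ℤ} {s : X → V} {x : X} (h : HolAt κ s x) {e : Ch X}
    (he : e ∈ atlas C2 X) (hx : x ∈ e.source) : AnalyticAt ℂ (loc0 κ e s) (e x) :=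
  loc0_analyticAt_change he (chart_mem_atlas C2 x) hx (mem_chart_source C2 x) h

theorem holAt_of_chart {κ : ℤ} {s : X → V} {x : X} {e : Ch X} (he : e ∈ atlas C2 X)
    (hx : x ∈ e.source) (h : AnalyticAt ℂ (loc0 κ e s) (e x)) : HolAt κ s x :=
  loc0_analyticAt_change (chart_mem_atlas C2 x) he (mem_chart_source C2 x) hx h

theorem HolAt.at0 [CompleteSpace V] {n : WithTop ℕ∞} {κ : ℤ} {s : X → V} {x : X} (h : HolAt κ s x) : At0 n κ s x :=
  ((AnalyticAt.contDiffAt h (n := n))).restrict_scalars ℝ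

theorem HolAt.dbar0 {κ : ℤ} {s : X → V} {x : X} (h : HolAt κ s x) : dbar0 κ s x = 0 := by
  funext i
  exact dzb_of_hol (AnalyticAt.differentiableAt h) i

theorem HolAt.eventually [CompleteSpace V] {κ : ℤ} {s : X → V} {x : X} (h : HolAt κ s x) :
    ∀ᶠ y in 𝓝 x, HolAt κ s y := by
  have h1 := AnalyticAt.eventually_analyticAt h
  have hx := mem_chart_source C2 x
  filter_upwards [((chartAt C2 x).continuousAt hx).eventually h1,
    (chartAt C2 x).open_source.mem_nhds hx] with y hy hys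
  exact holAt_of_chart (chart_mem_atlas C2 x) hys hy

theorem HolAt.congr {κ : ℤ} {s t : X → V} {x : X} (h : HolAt κ s x) (hst : t =ᶠ[𝓝 x] s) :
    HolAt κ t x :=
  AnalyticAt.congr h (loc0_congr (mem_chart_source C2 x) hst).symm

/-- a `C^1` section with `∂̄s = 0` near `x` is holomorphic near `x` -/
theorem holAt_of_dbar0 [CompleteSpace V] {κ : ℤ} {s : X → V} {x : X}
    (h : ∀ᶠ y in 𝓝 x, At0 1 κ s y ∧ dbar0 κ s y = 0) : HolAt κ s x := by
  set e := chartAt C2 x with hed
  have he : e ∈ atlas C2 X := chart_mem_atlas C2 x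
  have hx : x ∈ e.source := mem_chart_source C2 x
  have h1 : ∀ᶠ z in 𝓝 (e x), DifferentiableAt ℂ (loc0 κ e s) z := by
    filter_upwards [(tendsto_symm_nhds hx).eventually h, e.open_target.mem_nhds
      (e.map_source hx)] with z hz hzt
    have h2 : ContDiffAt ℝ 1 (loc0 κ e s) z := by
      have := hz.1.chart he (e.map_target hzt)
      rwa [e.right_inv hzt] at this
    have h3 : DifferentiableAt ℝ (loc0 κ e s) z := h2.differentiableAt (by simp)
    rw [differentiableAt_complex_iff h3]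
    intro j
    rw [← loc1_dbar0 he hzt h3 j, loc1, hz.2]
    simp
  obtain ⟨U, hU, hUo, hxU⟩ := eventually_nhds_iff.1 h1
  exact P281.MF.analyticAt_of_differentiableOn (U := U) hUo
    (fun z hz => (hU z hz).differentiableWithinAt) hxU

theorem holAt_iff [CompleteSpace V] {κ : ℤ} {s : X → V} {x : X} :
    HolAt κ s x ↔ ∀ᶠ y in 𝓝 x, At0 1 κ s y ∧ dbar0 κ s y = 0 :=
  ⟨fun h => h.eventually.mono fun y hy => ⟨hy.at0, hy.dbar0⟩, holAt_of_dbar0⟩

theorem HolOn.holAt [CompleteSpace V] {κ : ℤ} {s : X → V} {U : Set X} (h : HolOn κ s U)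
    (hU : IsOpen U) {x : X} (hx : x ∈ U) : HolAt κ s x := by
  have hxs := mem_chart_source C2 x
  exact P281.MF.analyticAt_of_differentiableOn
    ((chartAt C2 x).symm.isOpen_inter_preimage hU) (h _ (chart_mem_atlas C2 x))
    ⟨(chartAt C2 x).map_source hxs, by simpa [(chartAt C2 x).left_inv hxs] using hx⟩

theorem holOn_of_holAt {κ : ℤ} {s : X → V} {U : Set X} (h : ∀ x ∈ U, HolAt κ s x) :
    HolOn κ s U := by
  intro e he z hz
  have h1 := (h (e.symm z) hz.2).chart he (e.map_target hz.1)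
  rw [e.right_inv hz.1] at h1
  exact h1.differentiableAt.differentiableWithinAt

theorem holOn_iff [CompleteSpace V] {κ : ℤ} {s : X → V} {U : Set X} (hU : IsOpen U) :
    HolOn κ s U ↔ ∀ x ∈ U, HolAt κ s x :=
  ⟨fun h x hx => h.holAt hU hx, holOn_of_holAt⟩

/-- holomorphic sections are the `C^1` solutions of `∂̄s = 0` -/
theorem holOn_iff_dbar0 [CompleteSpace V] {κ : ℤ} {s : X → V} {U : Set X} (hU : IsOpen U) :
    HolOn κ s U ↔ ∀ x ∈ U, At0 1 κ s x ∧ dbar0 κ s x = 0 := by
  rw [holOn_iff hU]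
  refine ⟨fun h x hx => ⟨(h x hx).at0, (h x hx).dbar0⟩, fun h x hx => holAt_of_dbar0 ?_⟩
  filter_upwards [hU.mem_nhds hx] with y hy
  exact h y hy

/-- holomorphic functions in the sense of Mathlib -/
theorem holOn_zero_iff_mdifferentiableOn {s : X → V} {U : Set X} (hU : IsOpen U) :
    HolOn 0 s U ↔ MDifferentiableOn 𝓘(ℂ, C2) 𝓘(ℂ, V) s U := by
  constructor
  · intro h x hx
    have hxs := mem_chart_source C2 x
    have h1 := h _ (chart_mem_atlas C2 x)
    rw [LB.loc0_zero] at h1
    have h2 : DifferentiableAt ℂ (s ∘ (chartAt C2 x).symm) (chartAt C2 x x) :=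
      (h1 _ ⟨(chartAt C2 x).map_source hxs,
        by simpa [(chartAt C2 x).left_inv hxs] using hx⟩).differentiableAt
        (((chartAt C2 x).symm.isOpen_inter_preimage hU).mem_nhds ⟨(chartAt C2 x).map_source hxs,
        by simpa [(chartAt C2 x).left_inv hxs] using hx⟩)
    refine MDifferentiableAt.mdifferentiableWithinAt ?_
    rw [mdifferentiableAt_iff]
    refine ⟨?_, ?_⟩
    · have h3 : ContinuousAt ((s ∘ (chartAt C2 x).symm) ∘ chartAt C2 x) x :=
        ContinuousAt.comp h2.continuousAt ((chartAt C2 x).continuousAt (mem_chart_source C2 x))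
      refine h3.congr ?_
      filter_upwards [(chartAt C2 x).open_source.mem_nhds (mem_chart_source C2 x)] with y hy
      simp [(chartAt C2 x).left_inv hy]
    · simpa [writtenInExtChartAt, extChartAt, OpenPartialHomeomorph.extend,
        chartAt_self_eq] using h2.differentiableWithinAt (s := univ)
  · intro h e he z hz
    have hz' := e.map_target hz.1
    have h1 : MDifferentiableAt 𝓘(ℂ, C2) 𝓘(ℂ, V) s (e.symm z) :=
      (h _ hz.2).mdifferentiableAt (hU.mem_nhds hz.2)
    have h2 : MDifferentiableAt 𝓘(ℂ, C2) 𝓘(ℂ, C2) e.symm z :=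
      mdifferentiableAt_atlas_symm he hz.1
    have h3 := h1.comp z h2
    rw [LB.loc0_zero]
    exact h3.differentiableAt.differentiableWithinAt

end hol

end Vale.Agent.P267.FL
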