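import Vale.Agent.P267.H399.LBCalc

/-! P267 / H399: curvature of projectors: charts, smoothness, closedness, symmetry,
tensor product, dual. -/

set_option linter.unusedVariables false
set_option linter.unusedSectionVars false
set_option linter.unusedSimpArgs false

open scoped Manifold ContDiff ComplexConjugate Matrix ComplexOrder
open MeasureTheory Set Filter Topology

noncomputable section

namespace Vale.Agent.P267.FL

/-! ### functionals on differentials -/

/-- complex linear functionals on the real-linear maps `ℂ² → ℂ` (complex tangent vectors) -/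
abbrev FD : Type := (C2 →L[ℝ] ℂ) →ₗ[ℂ] ℂ

/-- `∂/∂z_i` -/
def Tz (i : Fin 2) : FD where
  toFun L := (1 / 2 : ℂ) • (L (Pi.single i 1) - Complex.I • L (Pi.single i Complex.I))
  map_add' L M := by simp only [_root_.add_apply, smul_eq_mul]; ring
  map_smul' c L := by simp only [_root_.smul_apply, smul_eq_mul, RingHom.id_apply]; ring

/-- `∂/∂z̄_i` -/
def Tb (i : Fin 2) : FD where
  toFun L := (1 / 2 : ℂ) • (L (Pi.single i 1) + Complex.I • L (Pi.single i Complex.I))
  map_add' L M := by simp only [_root_.add_apply, smul_eq_mul]; ring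
  map_smul' c L := by simp only [_root_.smul_apply, smul_eq_mul, RingHom.id_apply]; ring

theorem Tz_fderiv (i : Fin 2) (f : C2 → ℂ) (z : C2) : Tz i (fderiv ℝ f z) = dz i f z := rfl

theorem Tb_fderiv (i : Fin 2) (f : C2 → ℂ) (z : C2) : Tb i (fderiv ℝ f z) = dzb i f z := rfl

/-- derivative of `f` at `z` in the direction `T` -/
def dT (T : FD) (f : C2 → ℂ) (z : C2) : ℂ := T (fderiv ℝ f z)

theorem dT_add (T : FD) {f g : C2 → ℂ} {z : C2} (hf : DifferentiableAt ℝ f z)
    (hg : DifferentiableAt ℝ g z) : dT T (fun y => f y + g y) z = dT T f z + dT T g z := by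
  rw [dT, fderiv_fun_add hf hg, map_add]
  rfl

theorem dT_mul (T : FD) {f g : C2 → ℂ} {z : C2} (hf : DifferentiableAt ℝ f z)
    (hg : DifferentiableAt ℝ g z) :
    dT T (fun y => f y * g y) z = dT T f z * g z + f z * dT T g z := by
  have h : fderiv ℝ (fun y => f y * g y) z = f z • fderiv ℝ g z + g z • fderiv ℝ f z :=
    fderiv_fun_mul hf hg
  rw [dT, h, map_add, map_smul, map_smul, smul_eq_mul, smul_eq_mul, dT, dT]
  ring

theorem dT_sum (T : FD) {ι : Type*} (S : Finset ι) {f : ι → C2 → ℂ} {z : C2}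
    (hf : ∀ i ∈ S, DifferentiableAt ℝ (f i) z) :
    dT T (fun y => ∑ i ∈ S, f i y) z = ∑ i ∈ S, dT T (f i) z := by
  rw [dT, fderiv_fun_sum hf, map_sum]
  rfl

theorem dT_neg (T : FD) {f : C2 → ℂ} {z : C2} : dT T (fun y => -f y) z = -dT T f z := by
  rw [dT, fderiv_fun_neg, map_neg]
  rfl

theorem dT_sub (T : FD) {f g : C2 → ℂ} {z : C2} (hf : DifferentiableAt ℝ f z)
    (hg : DifferentiableAt ℝ g z) : dT T (fun y => f y - g y) z = dT T f z - dT T g z := by
  rw [dT, fderiv_fun_sub hf hg, map_sub]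
  rfl

theorem dT_const (T : FD) (c : ℂ) (z : C2) : dT T (fun _ => c) z = 0 := by
  simp [dT]

theorem dT_congr (T : FD) {f g : C2 → ℂ} {z : C2} (h : f =ᶠ[𝓝 z] g) : dT T f z = dT T g z := by
  rw [dT, dT, h.fderiv_eq]

theorem dT_Tz (i : Fin 2) (f : C2 → ℂ) (z : C2) : dT (Tz i) f z = dz i f z := rfl

theorem dT_Tb (i : Fin 2) (f : C2 → ℂ) (z : C2) : dT (Tb i) f z = dzb i f z := rfl

theorem dT_add_left (T T' : FD) (f : C2 → ℂ) (z : C2) : dT (T + T') f z = dT T f z + dT T' f z :=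
  rfl

theorem dT_smul_left (c : ℂ) (T : FD) (f : C2 → ℂ) (z : C2) : dT (c • T) f z = c * dT T f z := rfl

/-! ### the curvature expression of a matrix valued function -/

section crv

variable {ι : Type} [Fintype ι] [DecidableEq ι] {ι' : Type} [Fintype ι'] [DecidableEq ι']

/-- derivative of a matrix valued function -/
def mT (T : FD) (Q : C2 → Matrix ι ι ℂ) (z : C2) : Matrix ι ι ℂ :=
  Matrix.of fun i j => dT T (fun y => Q y i j) z

/-- `tr (Q [∂_T Q, ∂_{T'} Q])` -/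
def crv (Q : C2 → Matrix ι ι ℂ) (T T' : FD) (z : C2) : ℂ :=
  (Q z * (mT T Q z * mT T' Q z - mT T' Q z * mT T Q z)).trace

theorem mT_add_left (T T' : FD) (Q : C2 → Matrix ι ι ℂ) (z : C2) :
    mT (T + T') Q z = mT T Q z + mT T' Q z := rfl

theorem mT_smul_left (c : ℂ) (T : FD) (Q : C2 → Matrix ι ι ℂ) (z : C2) :
    mT (c • T) Q z = c • mT T Q z := rfl

theorem crv_swap (Q : C2 → Matrix ι ι ℂ) (T T' : FD) (z : C2) : crv Q T T' z = -crv Q T' T z := by
  rw [crv, crv, ← Matrix.trace_neg, ← mul_neg, neg_sub]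

theorem crv_self (Q : C2 → Matrix ι ι ℂ) (T : FD) (z : C2) : crv Q T T z = 0 := by
  rw [crv, sub_self, mul_zero, Matrix.trace_zero]

theorem crv_add_left (Q : C2 → Matrix ι ι ℂ) (T₁ T₂ T' : FD) (z : C2) :
    crv Q (T₁ + T₂) T' z = crv Q T₁ T' z + crv Q T₂ T' z := by
  rw [crv, crv, crv, mT_add_left, ← Matrix.trace_add, ← mul_add]
  congr 2
  noncomm_ring

theorem crv_smul_left (Q : C2 → Matrix ι ι ℂ) (c : ℂ) (T T' : FD) (z : C2) :
    crv Q (c • T) T' z = c * crv Q T T' z := by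
  rw [crv, crv, mT_smul_left, Matrix.smul_mul, Matrix.mul_smul, ← smul_sub, Matrix.mul_smul,
    Matrix.trace_smul, smul_eq_mul]

theorem crv_add_right (Q : C2 → Matrix ι ι ℂ) (T T₁ T₂ : FD) (z : C2) :
    crv Q T (T₁ + T₂) z = crv Q T T₁ z + crv Q T T₂ z := by
  rw [crv_swap, crv_add_left, crv_swap Q T T₁, crv_swap Q T T₂]
  ring

theorem crv_smul_right (Q : C2 → Matrix ι ι ℂ) (c : ℂ) (T T' : FD) (z : C2) :
    crv Q T (c • T') z = c * crv Q T T' z := by
  rw [crv_swap, crv_smul_left, crv_swap Q T T']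
  ring

/-- entries differentiable -/
def MD (Q : C2 → Matrix ι ι ℂ) (z : C2) : Prop := ∀ i j, DifferentiableAt ℝ (fun y => Q y i j) z

theorem mT_mul (T : FD) {Q R : C2 → Matrix ι ι ℂ} {z : C2} (hQ : MD Q z) (hR : MD R z) :
    mT T (fun y => Q y * R y) z = mT T Q z * R z + Q z * mT T R z := by
  ext i j
  have h1 : (fun y => (Q y * R y) i j) = fun y => ∑ l, Q y i l * R y l j := by
    funext y
    rw [Matrix.mul_apply]
  simp only [mT, Matrix.of_apply, Matrix.add_apply, Matrix.mul_apply]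
  rw [dT_sum T _ fun l _ => (hQ i l).fun_mul (hR l j), ← Finset.sum_add_distrib]
  exact Finset.sum_congr rfl fun l _ => dT_mul T (hQ i l) (hR l j)

theorem mT_congr (T : FD) {Q R : C2 → Matrix ι ι ℂ} {z : C2} (h : Q =ᶠ[𝓝 z] R) :
    mT T Q z = mT T R z := by
  ext i j
  exact dT_congr T (h.mono fun y hy => congrFun (congrFun hy i) j)

/-- a family of projectors -/
theorem mT_proj (T : FD) {Q : C2 → Matrix ι ι ℂ} {z : C2} (hQ : MD Q z)
    (hi : ∀ᶠ y in 𝓝 z, Q y * Q y = Q y) : mT T Q z * Q z + Q z * mT T Q z = mT T Q z := by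
  rw [← mT_mul T hQ hQ]
  exact mT_congr T hi

theorem proj_mT_proj (T : FD) {Q : C2 → Matrix ι ι ℂ} {z : C2} (hQ : MD Q z)
    (hi : ∀ᶠ y in 𝓝 z, Q y * Q y = Q y) : Q z * mT T Q z * Q z = 0 := by
  have h := mT_proj T hQ hi
  have hz := hi.self_of_nhds
  have h2 : Q z * (mT T Q z * Q z + Q z * mT T Q z) * Q z = Q z * mT T Q z * Q z := by rw [h]
  have h3 : Q z * (mT T Q z * Q z + Q z * mT T Q z) * Q z =
      Q z * mT T Q z * (Q z * Q z) + (Q z * Q z) * mT T Q z * Q z := by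
    noncomm_ring
  rw [h3, hz] at h2
  exact left_eq_add.1 h2.symm

/-- composition with a holomorphic map -/
theorem dT_comp {f : C2 → ℂ} {φ : C2 → C2} {z : C2} (hf : DifferentiableAt ℝ f (φ z))
    (hφ : DifferentiableAt ℂ φ z) (i : Fin 2) :
    dT (Tz i) (fun y => f (φ y)) z =
        dT (∑ p, dz i (fun y => φ y p) z • Tz p) f (φ z) ∧
      dT (Tb i) (fun y => f (φ y)) z =
        dT (∑ p, conj (dz i (fun y => φ y p) z) • Tb p) f (φ z) := by
  constructor
  · rw [dT_Tz, dz_comp hf hφ]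
    simp only [Fin.sum_univ_two, dT_add_left, dT_smul_left, dT_Tz, smul_eq_mul]
  · rw [dT_Tb, dzb_comp hf hφ]
    simp only [Fin.sum_univ_two, dT_add_left, dT_smul_left, dT_Tb, smul_eq_mul]

theorem mT_comp_z {Q : C2 → Matrix ι ι ℂ} {φ : C2 → C2} {z : C2} (hf : MD Q (φ z))
    (hφ : DifferentiableAt ℂ φ z) (i : Fin 2) :
    mT (Tz i) (fun y => Q (φ y)) z = mT (∑ p, dz i (fun y => φ y p) z • Tz p) Q (φ z) := by
  ext k l
  exact (dT_comp (hf k l) hφ i).1

theorem mT_comp_b {Q : C2 → Matrix ι ι ℂ} {φ : C2 → C2} {z : C2} (hf : MD Q (φ z))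
    (hφ : DifferentiableAt ℂ φ z) (i : Fin 2) :
    mT (Tb i) (fun y => Q (φ y)) z = mT (∑ p, conj (dz i (fun y => φ y p) z) • Tb p) Q (φ z) := by
  ext k l
  exact (dT_comp (hf k l) hφ i).2

theorem crv_congr {Q R : C2 → Matrix ι ι ℂ} {z : C2} (h : Q =ᶠ[𝓝 z] R) (T T' : FD) :
    crv Q T T' z = crv R T T' z := by
  rw [crv, crv, mT_congr T h, mT_congr T' h, h.self_of_nhds]

/-! #### tensor product and transpose -/

theorem mT_kron (T : FD) {Q : C2 → Matrix ι ι ℂ} {R : C2 → Matrix ι' ι' ℂ} {z : C2} (hQ : MD Q z)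
    (hR : MD R z) : mT T (fun y => Matrix.kroneckerMap (· * ·) (Q y) (R y)) z =
      Matrix.kroneckerMap (· * ·) (mT T Q z) (R z) +
        Matrix.kroneckerMap (· * ·) (Q z) (mT T R z) := by
  ext i j
  exact dT_mul T (hQ i.1 j.1) (hR i.2 j.2)

theorem crv_kron {Q : C2 → Matrix ι ι ℂ} {R : C2 → Matrix ι' ι' ℂ} {z : C2} (hQ : MD Q z)
    (hR : MD R z) (hQi : ∀ᶠ y in 𝓝 z, Q y * Q y = Q y) (hRi : ∀ᶠ y in 𝓝 z, R y * R y = R y)
    (hQt : (Q z).trace = 1) (hRt : (R z).trace = 1) (T T' : FD) :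
    crv (fun y => Matrix.kroneckerMap (· * ·) (Q y) (R y)) T T' z = crv Q T T' z + crv R T T' z := by
  have hQ1 := proj_mT_proj T hQ hQi
  have hQ2 := proj_mT_proj T' hQ hQi
  have hR1 := proj_mT_proj T hR hRi
  have hR2 := proj_mT_proj T' hR hRi
  have hQz := hQi.self_of_nhds
  have hRz := hRi.self_of_nhds
  -- traces with a derivative vanish
  have tr0 : ∀ {κ : Type} [Fintype κ] (P A : Matrix κ κ ℂ),
      P * A * P = 0 → (P * (A * P)).trace = 0 := by
    intro κ _ P A hA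
    rw [← mul_assoc, hA, Matrix.trace_zero]
  have mm := fun (A B : Matrix ι ι ℂ) (C D : Matrix ι' ι' ℂ) =>
    (Matrix.mul_kronecker_mul A B C D).symm
  have e : ∀ (T T' : FD), (Matrix.kroneckerMap (· * ·) (Q z) (R z) *
        (mT T (fun y => Matrix.kroneckerMap (· * ·) (Q y) (R y)) z *
          mT T' (fun y => Matrix.kroneckerMap (· * ·) (Q y) (R y)) z)).trace =
        (Q z * (mT T Q z * mT T' Q z)).trace + (R z * (mT T R z * mT T' R z)).trace := by
    intro T T'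
    rw [mT_kron T hQ hR, mT_kron T' hQ hR]
    simp only [mul_add, add_mul]
    rw [mm, mm, mm, mm, mm, mm, mm, mm]
    simp only [Matrix.trace_add]
    rw [Matrix.trace_kronecker, Matrix.trace_kronecker, Matrix.trace_kronecker,
      Matrix.trace_kronecker]
    rw [hRz, hQz, hQz, hQt, hRz, hRt, tr0 (Q z) _ (proj_mT_proj T hQ hQi),
      tr0 (R z) _ (proj_mT_proj T hR hRi)]
    ring
  rw [crv, crv, crv, mul_sub, Matrix.trace_sub, e T T', e T' T, mul_sub, mul_sub,
    Matrix.trace_sub, Matrix.trace_sub]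
  ring

theorem mT_transpose (T : FD) (Q : C2 → Matrix ι ι ℂ) (z : C2) :
    mT T (fun y => (Q y)ᵀ) z = (mT T Q z)ᵀ := rfl

theorem crv_transpose (Q : C2 → Matrix ι ι ℂ) (T T' : FD) (z : C2) :
    crv (fun y => (Q y)ᵀ) T T' z = -crv Q T T' z := by
  rw [crv, crv, mT_transpose, mT_transpose, ← Matrix.transpose_mul, ← Matrix.transpose_mul,
    ← Matrix.transpose_sub, ← Matrix.transpose_mul, Matrix.trace_transpose,
    Matrix.trace_mul_comm, ← Matrix.trace_neg, ← mul_neg, neg_sub]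

/-! #### conjugation -/

theorem dT_conj_z {f : C2 → ℂ} {z : C2} (hf : DifferentiableAt ℝ f z) (i : Fin 2) :
    dT (Tz i) (fun y => conj (f y)) z = conj (dT (Tb i) f z) := dz_conj hf i

theorem dT_conj_b {f : C2 → ℂ} {z : C2} (hf : DifferentiableAt ℝ f z) (i : Fin 2) :
    dT (Tb i) (fun y => conj (f y)) z = conj (dT (Tz i) f z) := dzb_conj hf i

theorem mT_herm_z {Q : C2 → Matrix ι ι ℂ} {z : C2} (hQ : MD Q z)
    (hh : ∀ᶠ y in 𝓝 z, (Q y)ᴴ = Q y) (i : Fin 2) : (mT (Tb i) Q z)ᴴ = mT (Tz i) Q z := by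
  ext k l
  rw [Matrix.conjTranspose_apply]
  change conj (dT (Tb i) (fun y => Q y l k) z) = dT (Tz i) (fun y => Q y k l) z
  rw [← dT_conj_z (hQ l k) i]
  refine dT_congr _ ?_
  filter_upwards [hh] with y hy
  have := congrFun (congrFun hy k) l
  simpa [Matrix.conjTranspose_apply] using this

theorem mT_herm_b {Q : C2 → Matrix ι ι ℂ} {z : C2} (hQ : MD Q z)
    (hh : ∀ᶠ y in 𝓝 z, (Q y)ᴴ = Q y) (i : Fin 2) : (mT (Tz i) Q z)ᴴ = mT (Tb i) Q z := by
  rw [← mT_herm_z hQ hh, Matrix.conjTranspose_conjTranspose]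

theorem crv_conj_aux {P A B : Matrix ι ι ℂ} (hP : Pᴴ = P) :
    conj ((P * (A * B - B * A)).trace) = (P * (Bᴴ * Aᴴ - Aᴴ * Bᴴ)).trace := by
  have h1 : conj ((P * (A * B - B * A)).trace) = ((P * (A * B - B * A))ᴴ).trace := by
    rw [Matrix.trace_conjTranspose]
    rfl
  rw [h1, Matrix.conjTranspose_mul, Matrix.conjTranspose_sub, Matrix.conjTranspose_mul,
    Matrix.conjTranspose_mul, hP, Matrix.trace_mul_comm]

theorem conj_crv_bb {Q : C2 → Matrix ι ι ℂ} {z : C2} (hQ : MD Q z)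
    (hh : ∀ᶠ y in 𝓝 z, (Q y)ᴴ = Q y) (i j : Fin 2) :
    conj (crv Q (Tb i) (Tb j) z) = -crv Q (Tz i) (Tz j) z := by
  rw [crv_swap Q (Tz i), neg_neg, crv, crv_conj_aux hh.self_of_nhds, mT_herm_z hQ hh,
    mT_herm_z hQ hh]
  rfl

theorem conj_crv_zb {Q : C2 → Matrix ι ι ℂ} {z : C2} (hQ : MD Q z)
    (hh : ∀ᶠ y in 𝓝 z, (Q y)ᴴ = Q y) (i j : Fin 2) :
    conj (crv Q (Tz i) (Tb j) z) = crv Q (Tz j) (Tb i) z := by
  rw [crv, crv_conj_aux hh.self_of_nhds, mT_herm_z hQ hh, mT_herm_b hQ hh]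
  rfl

/-! #### closedness -/

/-- the product of three off-diagonal matrices has trace zero -/
theorem trace_three {P A B C : Matrix ι ι ℂ} (hP : P * P = P) (hA : A * P + P * A = A)
    (hB : B * P + P * B = B) (hC : C * P + P * C = C) : (A * B * C).trace = 0 := by
  have hPAP : P * A * P = 0 := by
    have h2 : P * (A * P + P * A) * P = P * A * P := by rw [hA]
    have h3 : P * (A * P + P * A) * P = P * A * (P * P) + (P * P) * A * P := by noncomm_ring
    rw [h3, hP] at h2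
    exact left_eq_add.1 h2.symm
  -- `P` commutes with `B C`
  have hcomm : B * C * P = P * (B * C) := by
    have h1 : C * P = C - P * C := eq_sub_of_add_eq hC
    have h2 : B * P = B - P * B := eq_sub_of_add_eq hB
    calc B * C * P = B * (C * P) := by rw [mul_assoc]
      _ = B * C - B * P * C := by rw [h1]; noncomm_ring
      _ = P * (B * C) := by rw [h2]; noncomm_ring
  have e1 : (A * B * C).trace = (A * P * (B * C)).trace + (P * A * (B * C)).trace := by
    rw [← Matrix.trace_add, ← add_mul, hA, mul_assoc]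
  have e2 : (P * A * (B * C)).trace = (A * P * (B * C)).trace := by
    rw [mul_assoc, Matrix.trace_mul_comm, mul_assoc A, hcomm, ← mul_assoc]
  have e3 : (A * P * (B * C)).trace = 0 := by
    have h1 : A * P * (B * C) = A * P * (P * (B * C)) := by
      rw [← mul_assoc (A * P) P, mul_assoc A P P, hP]
    have h4 : P * (A * P * (B * C)) = P * A * P * (B * C) := by noncomm_ring
    rw [h1, ← hcomm, ← mul_assoc, Matrix.trace_mul_comm, h4, hPAP, zero_mul, Matrix.trace_zero]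
  rw [e1, e2, e3, add_zero]

/-- twice differentiable entries -/
def MD2 (Q : C2 → Matrix ι ι ℂ) (z : C2) : Prop := ∀ i j, ContDiffAt ℝ 2 (fun y => Q y i j) z

theorem MD2.md {Q : C2 → Matrix ι ι ℂ} {z : C2} (h : MD2 Q z) : MD Q z := fun i j =>
  (h i j).differentiableAt (by norm_num)

/-- basic functional: one of `Tz i`, `Tb i` -/
def Bas (T : FD) : Prop := (∃ i, T = Tz i) ∨ ∃ i, T = Tb i

theorem dT_diff {T : FD} (hT : Bas T) {f : C2 → ℂ} {z : C2} (hf : ContDiffAt ℝ 2 f z) :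
    DifferentiableAt ℝ (dT T f) z := by
  rcases hT with ⟨i, rfl⟩ | ⟨i, rfl⟩
  · exact (contDiffAt_dz (m := 1) hf (by norm_num) i).differentiableAt (by norm_num)
  · exact (contDiffAt_dzb (m := 1) hf (by norm_num) i).differentiableAt (by norm_num)

theorem dT_comm {T T' : FD} (hT : Bas T) (hT' : Bas T') {f : C2 → ℂ} {z : C2}
    (hf : ContDiffAt ℝ 2 f z) : dT T (dT T' f) z = dT T' (dT T f) z := by
  rcases hT with ⟨i, rfl⟩ | ⟨i, rfl⟩ <;> rcases hT' with ⟨j, rfl⟩ | ⟨j, rfl⟩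
  · exact dz_dz_comm hf i j
  · exact dz_dzb_comm hf i j
  · exact (dz_dzb_comm hf j i).symm
  · exact dzb_dzb_comm hf i j

theorem mT_md {T : FD} (hT : Bas T) {Q : C2 → Matrix ι ι ℂ} {z : C2} (hQ : MD2 Q z) :
    MD (mT T Q) z := fun i j => dT_diff hT (hQ i j)

theorem mT_comm {T T' : FD} (hT : Bas T) (hT' : Bas T') {Q : C2 → Matrix ι ι ℂ} {z : C2}
    (hQ : MD2 Q z) : mT T (mT T' Q) z = mT T' (mT T Q) z := by
  ext i j
  exact dT_comm hT hT' (hQ i j)

theorem mT_sub (T : FD) {Q R : C2 → Matrix ι ι ℂ} {z : C2} (hQ : MD Q z) (hR : MD R z) :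
    mT T (fun y => Q y - R y) z = mT T Q z - mT T R z := by
  ext i j
  exact dT_sub T (hQ i j) (hR i j)

theorem MD.mul {Q R : C2 → Matrix ι ι ℂ} {z : C2} (hQ : MD Q z) (hR : MD R z) :
    MD (fun y => Q y * R y) z := by
  intro i j
  have h1 : (fun y => (Q y * R y) i j) = fun y => ∑ l, Q y i l * R y l j := by
    funext y
    rw [Matrix.mul_apply]
  rw [h1]
  exact DifferentiableAt.fun_sum fun l _ => (hQ i l).fun_mul (hR l j)

theorem MD.sub {Q R : C2 → Matrix ι ι ℂ} {z : C2} (hQ : MD Q z) (hR : MD R z) :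
    MD (fun y => Q y - R y) z := fun i j => (hQ i j).fun_sub (hR i j)

theorem dT_trace (T : FD) {Q : C2 → Matrix ι ι ℂ} {z : C2} (hQ : MD Q z) :
    dT T (fun y => (Q y).trace) z = (mT T Q z).trace :=
  dT_sum T Finset.univ fun i _ => hQ i i

/-- derivative of the curvature expression -/
theorem dT_crv {S T T' : FD} (hT : Bas T) (hT' : Bas T') {Q : C2 → Matrix ι ι ℂ} {z : C2}
    (hQ : MD2 Q z) : dT S (crv Q T T') z =
      (mT S Q z * (mT T Q z * mT T' Q z - mT T' Q z * mT T Q z)).trace +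
      (Q z * (mT S (mT T Q) z * mT T' Q z - mT T' Q z * mT S (mT T Q) z)).trace +
      (Q z * (mT T Q z * mT S (mT T' Q) z - mT S (mT T' Q) z * mT T Q z)).trace := by
  have h1 := mT_md hT hQ
  have h2 := mT_md hT' hQ
  have h3 : dT S (crv Q T T') z = (mT S (fun y => Q y * (mT T Q y * mT T' Q y -
      mT T' Q y * mT T Q y)) z).trace := dT_trace S (hQ.md.mul ((h1.mul h2).sub (h2.mul h1)))
  rw [h3, mT_mul S hQ.md ((h1.mul h2).sub (h2.mul h1)), mT_sub S (h1.mul h2) (h2.mul h1),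
    mT_mul S h1 h2, mT_mul S h2 h1, ← Matrix.trace_add, ← Matrix.trace_add]
  congr 1
  noncomm_ring

/-- BIANCHI IDENTITY: the cyclic sum of the derivatives of the curvature vanishes -/
theorem crv_closed {S T T' : FD} (hS : Bas S) (hT : Bas T) (hT' : Bas T')
    {Q : C2 → Matrix ι ι ℂ} {z : C2} (hQ : MD2 Q z) (hi : ∀ᶠ y in 𝓝 z, Q y * Q y = Q y) :
    dT S (crv Q T T') z + dT T (crv Q T' S) z + dT T' (crv Q S T) z = 0 := by
  have hp := hi.self_of_nhds
  have h1 := mT_proj S hQ.md hi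
  have h2 := mT_proj T hQ.md hi
  have h3 := mT_proj T' hQ.md hi
  have a1 := trace_three hp h1 h2 h3
  have a2 := trace_three hp h1 h3 h2
  rw [dT_crv hT hT' hQ, dT_crv hT' hS hQ, dT_crv hS hT hQ, mT_comm hT hS hQ, mT_comm hT' hT hQ,
    mT_comm hT' hS hQ]
  have c1 : (mT T Q z * (mT T' Q z * mT S Q z - mT S Q z * mT T' Q z)).trace =
      (mT S Q z * mT T Q z * mT T' Q z).trace - (mT S Q z * mT T' Q z * mT T Q z).trace := by
    rw [mul_sub, Matrix.trace_sub, ← mul_assoc, Matrix.trace_mul_comm, ← mul_assoc,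
      Matrix.trace_mul_comm (mT T Q z)]
  have c2 : (mT T' Q z * (mT S Q z * mT T Q z - mT T Q z * mT S Q z)).trace =
      (mT S Q z * mT T Q z * mT T' Q z).trace - (mT S Q z * mT T' Q z * mT T Q z).trace := by
    rw [mul_sub, Matrix.trace_sub, Matrix.trace_mul_comm (mT T' Q z) (mT S Q z * mT T Q z),
      ← mul_assoc (mT T' Q z), Matrix.trace_mul_comm _ (mT S Q z), ← mul_assoc (mT S Q z)]
  have c0 : (mT S Q z * (mT T Q z * mT T' Q z - mT T' Q z * mT T Q z)).trace =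
      (mT S Q z * mT T Q z * mT T' Q z).trace - (mT S Q z * mT T' Q z * mT T Q z).trace := by
    rw [mul_sub, Matrix.trace_sub, mul_assoc, mul_assoc]
  rw [c0, c1, c2, a1, a2]
  simp only [mul_sub, Matrix.trace_sub]
  ring

end crv

/-! ### the curvature of a line bundle in charts -/

namespace LB

variable {X : Type*} [TopologicalSpace X] [ChartedSpace C2 X]
variable {ι : Type} [Fintype ι] [DecidableEq ι] {ι' : Type} [Fintype ι'] [DecidableEq ι']

/-- the projector in a chart -/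
def Pc (L : LB X ι) (e : Ch X) (z : C2) : Matrix ι ι ℂ := L.P (e.symm z)

theorem F20_crv (L : LB X ι) (x : X) :
    L.F20 x = crv (L.Pc (chartAt C2 x)) (Tz 0) (Tz 1) (chartAt C2 x x) := by
  have h : L.P x = L.Pc (chartAt C2 x) (chartAt C2 x x) := by
    rw [Pc, (chartAt C2 x).left_inv (mem_chart_source C2 x)]
  rw [F20, h]
  rfl

theorem F11_crv (L : LB X ι) (x : X) (i j : Fin 2) :
    L.F11 x i j = crv (L.Pc (chartAt C2 x)) (Tz i) (Tb j) (chartAt C2 x x) := by
  have h : L.P x = L.Pc (chartAt C2 x) (chartAt C2 x x) := by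
    rw [Pc, (chartAt C2 x).left_inv (mem_chart_source C2 x)]
  have h2 : mT (Tb j) (L.Pc (chartAt C2 x)) (chartAt C2 x x) =
      Matrix.of fun i k => dbar0 0 (fun y => L.P y i k) x j := by
    ext i k
    simp only [mT, Matrix.of_apply, dbar0, loc0_zero]
    rfl
  rw [F11, Matrix.of_apply, crv, h2, ← h]
  rfl

theorem F02_crv (L : LB X ι) (x : X) :
    L.F02 x = crv (L.Pc (chartAt C2 x)) (Tb 0) (Tb 1) (chartAt C2 x x) := by
  have h : L.P x = L.Pc (chartAt C2 x) (chartAt C2 x x) := by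
    rw [Pc, (chartAt C2 x).left_inv (mem_chart_source C2 x)]
  have h2 : ∀ j, mT (Tb j) (L.Pc (chartAt C2 x)) (chartAt C2 x x) =
      Matrix.of fun i k => dbar0 0 (fun y => L.P y i k) x j := by
    intro j
    ext i k
    simp only [mT, Matrix.of_apply, dbar0, loc0_zero]
    rfl
  rw [F02, crv, h2, h2, ← h]

variable (L : LB X ι)

theorem Pc_contDiffOn {e : Ch X} (he : e ∈ atlas C2 X) (i j : ι) :
    ContDiffOn ℝ ∞ (fun z => L.Pc e z i j) e.target := by
  have := L.smooth i j e he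
  rwa [loc0_zero] at this

theorem Pc_contDiffAt {e : Ch X} (he : e ∈ atlas C2 X) {z : C2} (hz : z ∈ e.target) (i j : ι) :
    ContDiffAt ℝ ∞ (fun z => L.Pc e z i j) z :=
  (L.Pc_contDiffOn he i j).contDiffAt (e.open_target.mem_nhds hz)

theorem Pc_md2 {e : Ch X} (he : e ∈ atlas C2 X) {z : C2} (hz : z ∈ e.target) :
    MD2 (L.Pc e) z := fun i j =>
  (L.Pc_contDiffAt he hz i j).of_le (by exact WithTop.coe_le_coe.2 le_top)

theorem Pc_md {e : Ch X} (he : e ∈ atlas C2 X) {z : C2} (hz : z ∈ e.target) : MD (L.Pc e) z :=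
  (L.Pc_md2 he hz).md

theorem Pc_idem {e : Ch X} {z : C2} : ∀ᶠ y in 𝓝 z, L.Pc e y * L.Pc e y = L.Pc e y :=
  Eventually.of_forall fun y => L.idem _

theorem Pc_herm {e : Ch X} {z : C2} : ∀ᶠ y in 𝓝 z, (L.Pc e y)ᴴ = L.Pc e y :=
  Eventually.of_forall fun y => L.herm _

section

variable [IsManifold 𝓘(ℂ, C2) ω X]

theorem Pc_change {e e' : Ch X} {x : X} (hx : x ∈ e.source)
    (hx' : x ∈ e'.source) : L.Pc e =ᶠ[𝓝 (e x)] fun z => L.Pc e' (e' (e.symm z)) := by
  filter_upwards [(isOpen_trans e e').mem_nhds (mem_trans hx hx')] with z hz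
  rw [Pc, Pc, e'.left_inv hz.2]

theorem crv_change {e e' : Ch X} (he : e ∈ atlas C2 X) (he' : e' ∈ atlas C2 X) {x : X}
    (hx : x ∈ e.source) (hx' : x ∈ e'.source) (T T' : FD) (S S' : FD)
    (hT : ∀ {Q : C2 → Matrix ι ι ℂ}, MD Q (e' x) → mT T (fun z => Q (e' (e.symm z))) (e x) =
      mT S Q (e' x))
    (hT' : ∀ {Q : C2 → Matrix ι ι ℂ}, MD Q (e' x) → mT T' (fun z => Q (e' (e.symm z))) (e x) =
      mT S' Q (e' x)) : crv (L.Pc e) T T' (e x) = crv (L.Pc e') S S' (e' x) := by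
  rw [crv_congr (L.Pc_change hx hx'), crv, crv, hT (L.Pc_md he' (e'.map_source hx')),
    hT' (L.Pc_md he' (e'.map_source hx')), e.left_inv hx]

theorem mT_trans_z {e e' : Ch X} (he : e ∈ atlas C2 X) (he' : e' ∈ atlas C2 X) {x : X}
    (hx : x ∈ e.source) (hx' : x ∈ e'.source) (i : Fin 2) {Q : C2 → Matrix ι ι ℂ}
    (hQ : MD Q (e' x)) : mT (Tz i) (fun z => Q (e' (e.symm z))) (e x) =
      mT (∑ p, jacM e e' x p i • Tz p) Q (e' x) := by
  have h : e' (e.symm (e x)) = e' x := by rw [e.left_inv hx]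
  have := mT_comp_z (Q := Q) (φ := fun z => e' (e.symm z)) (z := e x) (by rwa [h])
    (trans_differentiableAt he he' hx hx') i
  rw [this, h]
  rfl

theorem mT_trans_b {e e' : Ch X} (he : e ∈ atlas C2 X) (he' : e' ∈ atlas C2 X) {x : X}
    (hx : x ∈ e.source) (hx' : x ∈ e'.source) (i : Fin 2) {Q : C2 → Matrix ι ι ℂ}
    (hQ : MD Q (e' x)) : mT (Tb i) (fun z => Q (e' (e.symm z))) (e x) =
      mT (∑ p, conj (jacM e e' x p i) • Tb p) Q (e' x) := by
  have h : e' (e.symm (e x)) = e' x := by rw [e.left_inv hx]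
  have := mT_comp_b (Q := Q) (φ := fun z => e' (e.symm z)) (z := e x) (by rwa [h])
    (trans_differentiableAt he he' hx hx') i
  rw [this, h]
  rfl

/-- the `(2,0)`-part of the curvature in an arbitrary chart -/
theorem loc0_F20 {e : Ch X} (he : e ∈ atlas C2 X) {z : C2} (hz : z ∈ e.target) :
    loc0 1 e L.F20 z = crv (L.Pc e) (Tz 0) (Tz 1) z := by
  obtain ⟨x, hx, rfl⟩ : ∃ x ∈ e.source, e x = z := ⟨e.symm z, e.map_target hz, e.right_inv hz⟩
  have he' := chart_mem_atlas C2 x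
  have hx' := mem_chart_source C2 x
  rw [L.crv_change he he' hx hx' (Tz 0) (Tz 1) _ _
    (fun hQ => mT_trans_z he he' hx hx' 0 hQ) (fun hQ => mT_trans_z he he' hx hx' 1 hQ),
    loc0_source hx, F20_crv, jac]
  simp only [Fin.sum_univ_two, crv_add_left, crv_add_right, crv_smul_left, crv_smul_right,
    crv_self, Matrix.det_fin_two, zpow_one, smul_eq_mul]
  rw [crv_swap _ (Tz 1) (Tz 0)]
  ring

/-- the `(1,1)`-part of the curvature in an arbitrary chart -/
theorem loc11_F11 {e : Ch X} (he : e ∈ atlas C2 X) {z : C2} (hz : z ∈ e.target) (i j : Fin 2) :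
    loc11 e L.F11 z i j = crv (L.Pc e) (Tz i) (Tb j) z := by
  obtain ⟨x, hx, rfl⟩ : ∃ x ∈ e.source, e x = z := ⟨e.symm z, e.map_target hz, e.right_inv hz⟩
  have he' := chart_mem_atlas C2 x
  have hx' := mem_chart_source C2 x
  rw [L.crv_change he he' hx hx' (Tz i) (Tb j) _ _
    (fun hQ => mT_trans_z he he' hx hx' i hQ) (fun hQ => mT_trans_b he he' hx hx' j hQ)]
  simp only [loc11, Matrix.of_apply, e.left_inv hx, Fin.sum_univ_two, crv_add_left, crv_add_right,
    crv_smul_left, crv_smul_right, smul_eq_mul, F11_crv, jac]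
  ring

/-- the `(0,2)`-part of the curvature in an arbitrary chart -/
theorem loc2_F02 {e : Ch X} (he : e ∈ atlas C2 X) {z : C2} (hz : z ∈ e.target) :
    loc2 0 e L.F02 z = crv (L.Pc e) (Tb 0) (Tb 1) z := by
  obtain ⟨x, hx, rfl⟩ : ∃ x ∈ e.source, e x = z := ⟨e.symm z, e.map_target hz, e.right_inv hz⟩
  have he' := chart_mem_atlas C2 x
  have hx' := mem_chart_source C2 x
  rw [L.crv_change he he' hx hx' (Tb 0) (Tb 1) _ _
    (fun hQ => mT_trans_b he he' hx hx' 0 hQ) (fun hQ => mT_trans_b he he' hx hx' 1 hQ),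
    loc2_source hx, F02_crv, jac]
  simp only [Fin.sum_univ_two, crv_add_left, crv_add_right, crv_smul_left, crv_smul_right,
    crv_self, Matrix.det_fin_two, zpow_zero, one_smul, smul_eq_mul, map_sub, map_mul]
  rw [crv_swap _ (Tb 1) (Tb 0)]
  ring

/-! ### smoothness -/

theorem mT_contDiffOn {T : FD} (hT : Bas T) {e : Ch X} (he : e ∈ atlas C2 X) (i j : ι) :
    ContDiffOn ℝ ∞ (fun z => mT T (L.Pc e) z i j) e.target := by
  rcases hT with ⟨k, rfl⟩ | ⟨k, rfl⟩
  · exact contDiffOn_dz e.open_target (L.Pc_contDiffOn he i j) (by simp) k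
  · exact contDiffOn_dzb e.open_target (L.Pc_contDiffOn he i j) (by simp) k

theorem crv_contDiffOn {T T' : FD} (hT : Bas T) (hT' : Bas T') {e : Ch X}
    (he : e ∈ atlas C2 X) : ContDiffOn ℝ ∞ (crv (L.Pc e) T T') e.target := by
  have h1 := L.mT_contDiffOn hT he
  have h2 := L.mT_contDiffOn hT' he
  have h3 := fun i j => L.Pc_contDiffOn he i j
  have e1 : crv (L.Pc e) T T' = fun z => ∑ i, ∑ k, L.Pc e z i k *
      ((∑ l, mT T (L.Pc e) z k l * mT T' (L.Pc e) z l i) -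
        ∑ l, mT T' (L.Pc e) z k l * mT T (L.Pc e) z l i) := by
    funext z
    simp only [crv, Matrix.trace, Matrix.diag_apply, Matrix.mul_apply, Matrix.sub_apply]
  rw [e1]
  exact ContDiffOn.sum fun i _ => ContDiffOn.sum fun k _ => (h3 i k).mul
    ((ContDiffOn.sum fun l _ => (h1 k l).mul (h2 l i)).sub
      (ContDiffOn.sum fun l _ => (h2 k l).mul (h1 l i)))

theorem reg_F20 : Reg0 ∞ 1 L.F20 := fun e he =>
  (L.crv_contDiffOn (Or.inl ⟨0, rfl⟩) (Or.inl ⟨1, rfl⟩) he).congr fun z hz => L.loc0_F20 he hz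

theorem reg_F11 : Reg11 ∞ L.F11 := fun e he i j =>
  (L.crv_contDiffOn (Or.inl ⟨i, rfl⟩) (Or.inr ⟨j, rfl⟩) he).congr
    fun z hz => L.loc11_F11 he hz i j

theorem reg_F02 : Reg2 ∞ 0 L.F02 := fun e he =>
  (L.crv_contDiffOn (Or.inr ⟨0, rfl⟩) (Or.inr ⟨1, rfl⟩) he).congr fun z hz => L.loc2_F02 he hz

/-- the curvature is a smooth two-form -/
theorem curv_smooth : L.curv.Smooth := ⟨L.reg_F20, L.reg_F11, L.reg_F02⟩

/-- the curvature is closed -/
theorem curv_closed : L.curv.Closed := by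
  have key : ∀ x : X, ∀ᶠ z in 𝓝 (chartAt C2 x x), z ∈ (chartAt C2 x).target := fun x =>
    (chartAt C2 x).open_target.mem_nhds (mem_chart_target C2 x)
  have bz : ∀ i, Bas (Tz i) := fun i => Or.inl ⟨i, rfl⟩
  have bb : ∀ i, Bas (Tb i) := fun i => Or.inr ⟨i, rfl⟩
  constructor
  · intro x j
    have he := chart_mem_atlas C2 x
    have h1 : loc0 1 (chartAt C2 x) L.F20 =ᶠ[𝓝 (chartAt C2 x x)]
        crv (L.Pc (chartAt C2 x)) (Tz 0) (Tz 1) := (key x).mono fun z hz => L.loc0_F20 he hz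
    have h2 : ∀ i, (fun z => loc11 (chartAt C2 x) L.F11 z i j) =ᶠ[𝓝 (chartAt C2 x x)]
        crv (L.Pc (chartAt C2 x)) (Tz i) (Tb j) := fun i =>
      (key x).mono fun z hz => L.loc11_F11 he hz i j
    have h3 : crv (L.Pc (chartAt C2 x)) (Tz 0) (Tb j) =
        fun z => -crv (L.Pc (chartAt C2 x)) (Tb j) (Tz 0) z := funext fun z => crv_swap _ _ _ _
    have h4 := crv_closed (bb j) (bz 0) (bz 1) (L.Pc_md2 he (mem_chart_target C2 x))
      (L.Pc_idem (e := chartAt C2 x))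
    change dbar0 1 L.F20 x j + (dz 0 (fun z => loc11 (chartAt C2 x) L.F11 z 1 j)
      (chartAt C2 x x) - dz 1 (fun z => loc11 (chartAt C2 x) L.F11 z 0 j) (chartAt C2 x x)) = 0
    rw [dbar0, dzb_congr h1, dz_congr (h2 1), dz_congr (h2 0), h3, dz_neg]
    rw [dT_Tb, dT_Tz, dT_Tz] at h4
    linear_combination h4
  · intro x i
    have he := chart_mem_atlas C2 x
    have h1 : loc2 0 (chartAt C2 x) L.F02 =ᶠ[𝓝 (chartAt C2 x x)]
        crv (L.Pc (chartAt C2 x)) (Tb 0) (Tb 1) := (key x).mono fun z hz => L.loc2_F02 he hz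
    have h2 : ∀ j, (fun z => loc11 (chartAt C2 x) L.F11 z i j) =ᶠ[𝓝 (chartAt C2 x x)]
        crv (L.Pc (chartAt C2 x)) (Tz i) (Tb j) := fun j =>
      (key x).mono fun z hz => L.loc11_F11 he hz i j
    have h3 : crv (L.Pc (chartAt C2 x)) (Tz i) (Tb 1) =
        fun z => -crv (L.Pc (chartAt C2 x)) (Tb 1) (Tz i) z := funext fun z => crv_swap _ _ _ _
    have h4 := crv_closed (bz i) (bb 0) (bb 1) (L.Pc_md2 he (mem_chart_target C2 x))
      (L.Pc_idem (e := chartAt C2 x))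
    change dz i (loc2 0 (chartAt C2 x) L.F02) (chartAt C2 x x) -
      (dzb 0 (fun z => loc11 (chartAt C2 x) L.F11 z i 1) (chartAt C2 x x) -
        dzb 1 (fun z => loc11 (chartAt C2 x) L.F11 z i 0) (chartAt C2 x x)) = 0
    rw [dz_congr h1, dzb_congr (h2 1), dzb_congr (h2 0), h3, dzb_neg]
    rw [dT_Tz, dT_Tb, dT_Tb] at h4
    linear_combination h4

/-! ### symmetry, tensor product, dual -/

theorem F20_eq_neg_conj (x : X) : L.F20 x = -conj (L.F02 x) := by
  rw [F20_crv, F02_crv, conj_crv_bb (L.Pc_md (chart_mem_atlas C2 x) (mem_chart_target C2 x))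
    L.Pc_herm, neg_neg]

theorem F02_eq_neg_conj (x : X) : L.F02 x = -conj (L.F20 x) := by
  rw [F20_eq_neg_conj, map_neg, Complex.conj_conj, neg_neg]

theorem F11_swap (x : X) (i j : Fin 2) : L.F11 x j i = conj (L.F11 x i j) := by
  rw [F11_crv, F11_crv, conj_crv_zb (L.Pc_md (chart_mem_atlas C2 x) (mem_chart_target C2 x))
    L.Pc_herm]

variable (L' : LB X ι')

theorem F20_tensor (x : X) : (L.tensor L').F20 x = L.F20 x + L'.F20 x := by
  have he := chart_mem_atlas C2 x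
  have hx := mem_chart_target C2 x
  rw [F20_crv, F20_crv, F20_crv, ← crv_kron (L.Pc_md he hx) (L'.Pc_md he hx) L.Pc_idem L'.Pc_idem
    (L.tr _) (L'.tr _)]
  rfl

theorem F11_tensor (x : X) (i j : Fin 2) :
    (L.tensor L').F11 x i j = L.F11 x i j + L'.F11 x i j := by
  have he := chart_mem_atlas C2 x
  have hx := mem_chart_target C2 x
  rw [F11_crv, F11_crv, F11_crv, ← crv_kron (L.Pc_md he hx) (L'.Pc_md he hx) L.Pc_idem L'.Pc_idem
    (L.tr _) (L'.tr _)]
  rfl

theorem F02_tensor (x : X) : (L.tensor L').F02 x = L.F02 x + L'.F02 x := by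
  have he := chart_mem_atlas C2 x
  have hx := mem_chart_target C2 x
  rw [F02_crv, F02_crv, F02_crv, ← crv_kron (L.Pc_md he hx) (L'.Pc_md he hx) L.Pc_idem L'.Pc_idem
    (L.tr _) (L'.tr _)]
  rfl

theorem F20_dual (x : X) : L.dual.F20 x = -L.F20 x := by
  rw [F20_crv, F20_crv, ← crv_transpose]
  rfl

theorem F11_dual (x : X) (i j : Fin 2) : L.dual.F11 x i j = -L.F11 x i j := by
  rw [F11_crv, F11_crv, ← crv_transpose]
  rfl

theorem F02_dual (x : X) : L.dual.F02 x = -L.F02 x := by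
  rw [F02_crv, F02_crv, ← crv_transpose]
  rfl

/-- a bundle with constant projector is flat -/
theorem crv_const (M : Matrix ι ι ℂ) (T T' : FD) (z : C2) : crv (fun _ => M) T T' z = 0 := by
  have h : ∀ T : FD, mT T (fun _ => M) z = 0 := by
    intro T
    ext i j
    exact dT_const T _ z
  rw [crv, h, h]
  simp

/-- locality of the curvature -/
theorem curv_congr {L₁ L₂ : LB X ι} {x : X} (h : ∀ᶠ y in 𝓝 x, L₁.P y = L₂.P y) :
    L₁.F20 x = L₂.F20 x ∧ L₁.F11 x = L₂.F11 x ∧ L₁.F02 x = L₂.F02 x := by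
  have h1 : L₁.Pc (chartAt C2 x) =ᶠ[𝓝 (chartAt C2 x x)] L₂.Pc (chartAt C2 x) := by
    filter_upwards [(tendsto_symm_nhds (mem_chart_source C2 x)).eventually h] with z hz
    exact hz
  refine ⟨?_, ?_, ?_⟩
  · rw [F20_crv, F20_crv, crv_congr h1]
  · ext i j
    rw [F11_crv, F11_crv, crv_congr h1]
  · rw [F02_crv, F02_crv, crv_congr h1]

/-- the curvature vanishes where the projector is locally constant -/
theorem curv_const {L₁ : LB X ι} {M : Matrix ι ι ℂ} {x : X} (h : ∀ᶠ y in 𝓝 x, L₁.P y = M) :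
    L₁.F20 x = 0 ∧ L₁.F11 x = 0 ∧ L₁.F02 x = 0 := by
  have h1 : L₁.Pc (chartAt C2 x) =ᶠ[𝓝 (chartAt C2 x x)] fun _ => M := by
    filter_upwards [(tendsto_symm_nhds (mem_chart_source C2 x)).eventually h] with z hz
    exact hz
  refine ⟨?_, ?_, ?_⟩
  · rw [F20_crv, crv_congr h1, crv_const]
  · ext i j
    rw [F11_crv, crv_congr h1, crv_const]
    rfl
  · rw [F02_crv, crv_congr h1, crv_const]

theorem F20_triv (i₀ : ι) (x : X) : (triv i₀ : LB X ι).F20 x = 0 :=
  (curv_const (M := Matrix.single i₀ i₀ 1) (Eventually.of_forall fun y => rfl)).1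

theorem F11_triv (i₀ : ι) (x : X) : (triv i₀ : LB X ι).F11 x = 0 :=
  (curv_const (M := Matrix.single i₀ i₀ 1) (Eventually.of_forall fun y => rfl)).2.1

theorem F02_triv (i₀ : ι) (x : X) : (triv i₀ : LB X ι).F02 x = 0 :=
  (curv_const (M := Matrix.single i₀ i₀ 1) (Eventually.of_forall fun y => rfl)).2.2

/-! ### holomorphic structures -/

theorem isHol_triv (i₀ : ι) : (triv i₀ : LB X ι).IsHol 0 := by
  refine ⟨reg1_iff_at.2 fun x => at1_zero, fun x => ?_⟩
  rw [F02_triv, add_zero]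
  exact dbar1_zero

variable {L L'}

theorem IsHol.tensor {a a' : X → Fin 2 → ℂ} (h : L.IsHol a) (h' : L'.IsHol a') :
    (L.tensor L').IsHol (fun y => a y + a' y) := by
  refine ⟨reg1_iff_at.2 fun x => (h.smooth.at x).add (h'.smooth.at x), fun x => ?_⟩
  rw [dbar1_add ((h.smooth.at x).of_le (by simp)) ((h'.smooth.at x).of_le (by simp)), F02_tensor]
  linear_combination h.integrable x + h'.integrable x

theorem IsHol.dual {a : X → Fin 2 → ℂ} (h : L.IsHol a) : L.dual.IsHol (-a) := by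
  have e : (-a) = fun y i => -a y i := rfl
  refine ⟨?_, fun x => ?_⟩
  · rw [e]
    exact reg1_iff_at.2 fun x => (h.smooth.at x).neg
  · rw [e, dbar1_neg ((h.smooth.at x).of_le (by simp)), F02_dual]
    linear_combination -h.integrable x

end

end LB

end Vale.Agent.P267.FL
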