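import Vale.Agent.P267.H399.Calc3

/-! P267 / H399: calculus for line bundles = rank one projectors. -/

set_option linter.unusedVariables false
set_option linter.unusedSectionVars false
set_option linter.unusedSimpArgs false

open scoped Manifold ContDiff ComplexConjugate Matrix ComplexOrder
open MeasureTheory Set Filter Topology

noncomputable section

namespace Vale.Agent.P267.FL.LB

variable {X : Type*} [TopologicalSpace X] [ChartedSpace C2 X]
variable {ι : Type} [Fintype ι] [DecidableEq ι] {ι' : Type} [Fintype ι'] [DecidableEq ι']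

/-! ### the action of matrices -/

section act

variable (M N : Matrix ι ι ℂ) (v w : EuclideanSpace ℂ ι)

theorem act_apply (i : ι) : act M v i = ∑ j, M i j * v j := rfl

theorem act_add : act M (v + w) = act M v + act M w := by
  ext i
  simp only [act_apply, PiLp.add_apply, mul_add, Finset.sum_add_distrib]

theorem act_smul (c : ℂ) : act M (c • v) = c • act M v := by
  ext i
  simp only [act_apply, PiLp.smul_apply, smul_eq_mul, Finset.mul_sum]
  exact Finset.sum_congr rfl fun j _ => by ring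

theorem act_zero : act M (0 : EuclideanSpace ℂ ι) = 0 := by
  ext i
  simp [act_apply]

theorem act_neg : act M (-v) = -act M v := by
  have := act_smul M v (-1)
  simpa using this

theorem act_sub : act M (v - w) = act M v - act M w := by
  rw [sub_eq_add_neg, act_add, act_neg, ← sub_eq_add_neg]

theorem act_sum {κ : Type*} (S : Finset κ) (f : κ → EuclideanSpace ℂ ι) :
    act M (∑ k ∈ S, f k) = ∑ k ∈ S, act M (f k) := by
  classical
  induction S using Finset.induction_on with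
  | empty => simp [act_zero]
  | insert i S hi ih => rw [Finset.sum_insert hi, act_add, ih, Finset.sum_insert hi]

theorem act_mul : act (M * N) v = act M (act N v) := by
  ext i
  simp only [act_apply, Matrix.mul_apply, Finset.sum_mul, Finset.mul_sum]
  rw [Finset.sum_comm]
  exact Finset.sum_congr rfl fun j _ => Finset.sum_congr rfl fun k _ => by ring

theorem add_act : act (M + N) v = act M v + act N v := by
  ext i
  simp only [act_apply, PiLp.add_apply, Matrix.add_apply, add_mul, Finset.sum_add_distrib]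

theorem sub_act : act (M - N) v = act M v - act N v := by
  ext i
  simp only [act_apply, PiLp.sub_apply, Matrix.sub_apply, sub_mul, Finset.sum_sub_distrib]

theorem neg_act : act (-M) v = -act M v := by
  ext i
  simp only [act_apply, PiLp.neg_apply, Matrix.neg_apply, neg_mul, Finset.sum_neg_distrib]

theorem smul_act (c : ℂ) : act (c • M) v = c • act M v := by
  ext i
  simp only [act_apply, PiLp.smul_apply, Matrix.smul_apply, smul_eq_mul, Finset.mul_sum]
  exact Finset.sum_congr rfl fun j _ => by ring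

theorem one_act : act (1 : Matrix ι ι ℂ) v = v := by
  ext i
  simp [act_apply, Matrix.one_apply]

theorem zero_act : act (0 : Matrix ι ι ℂ) v = 0 := by
  ext i
  simp [act_apply]

/-- evaluation at a coordinate, as a continuous linear map -/
def ev (i : ι) : EuclideanSpace ℂ ι →L[ℂ] ℂ := EuclideanSpace.proj i

theorem ev_apply (i : ι) (v : EuclideanSpace ℂ ι) : ev i v = v i := rfl

/-- `act` as a sum of elementary bilinear maps -/
theorem act_eq_sum : act M v = ∑ i, ∑ j, M i j • (v j • EuclideanSpace.single i (1 : ℂ)) := by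
  ext k
  simp only [act_apply, smul_eq_mul, WithLp.ofLp_sum, Finset.sum_apply, WithLp.ofLp_smul,
    Pi.smul_apply, PiLp.single_apply, mul_ite, mul_one, mul_zero]
  rw [Finset.sum_comm]
  simp

/-- act of a real-linear ... the matrix fixed -/
def actL (M : Matrix ι ι ℂ) : EuclideanSpace ℂ ι →L[ℂ] EuclideanSpace ℂ ι :=
  LinearMap.toContinuousLinearMap
    { toFun := fun v => act M v
      map_add' := fun v w => act_add M v w
      map_smul' := fun c v => act_smul M v c }

@[simp] theorem actL_apply : actL M v = act M v := rfl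

/-- `v ↦ v_j • e_i` -/
def elem (i j : ι) : EuclideanSpace ℂ ι →L[ℂ] EuclideanSpace ℂ ι :=
  (ev j).smulRight (EuclideanSpace.single i (1 : ℂ))

theorem elem_apply (i j : ι) : elem i j v = v j • EuclideanSpace.single i (1 : ℂ) := rfl

theorem act_eq_sum' : act M v = ∑ i, ∑ j, M i j • elem i j v := act_eq_sum M v

end act

/-! ### Leibniz rules for `act` -/

section leib

/-- matrix of the `k`-th `∂̄`-derivatives of the entries -/
def dbM (M : X → Matrix ι ι ℂ) (x : X) (k : Fin 2) : Matrix ι ι ℂ :=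
  Matrix.of fun i j => dbar0 0 (fun y => M y i j) x k

variable [IsManifold 𝓘(ℂ, C2) ω X]

theorem at0_act {n : WithTop ℕ∞} {κ : ℤ} {M : X → Matrix ι ι ℂ} {s : X → EuclideanSpace ℂ ι} {x : X}
    (hM : ∀ i j, At0 n 0 (fun y => M y i j) x) (hs : At0 n κ s x) :
    At0 n κ (fun y => act (M y) (s y)) x := by
  have h1 : (fun y => act (M y) (s y)) = fun y => ∑ i, ∑ j, M y i j • elem i j (s y) := by
    funext y
    exact act_eq_sum' _ _
  rw [h1]
  exact At0.sum fun i _ => At0.sum fun j _ => (hM i j).smul (hs.clm (elem i j))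

theorem at1_act {n : WithTop ℕ∞} {κ : ℤ} {M : X → Matrix ι ι ℂ}
    {s : X → Fin 2 → EuclideanSpace ℂ ι} {x : X}
    (hM : ∀ i j, At0 n 0 (fun y => M y i j) x) (hs : At1 n κ s x) :
    At1 n κ (fun y k => act (M y) (s y k)) x := by
  have h1 : (fun y k => act (M y) (s y k)) =
      fun y => ∑ i, (∑ j, fun k => M y i j • elem i j (s y k)) := by
    funext y k
    simp only [Finset.sum_apply]
    exact act_eq_sum' _ _
  rw [h1]
  exact At1.sum fun i _ => At1.sum fun j _ => At1.smul (hM i j) (hs.clm (elem i j))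

theorem at2_act {n : WithTop ℕ∞} {κ : ℤ} {M : X → Matrix ι ι ℂ} {s : X → EuclideanSpace ℂ ι} {x : X}
    (hM : ∀ i j, At0 n 0 (fun y => M y i j) x) (hs : At2 n κ s x) :
    At2 n κ (fun y => act (M y) (s y)) x := by
  have h1 : (fun y => act (M y) (s y)) = fun y => ∑ i, ∑ j, M y i j • elem i j (s y) := by
    funext y
    exact act_eq_sum' _ _
  rw [h1]
  exact At2.sum fun i _ => At2.sum fun j _ => At2.smul (hM i j) (hs.clm (elem i j))

/-- LEIBNIZ RULE for `act` in degree `0` -/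
theorem dbar0_act {κ : ℤ} {M : X → Matrix ι ι ℂ} {s : X → EuclideanSpace ℂ ι} {x : X}
    (hM : ∀ i j, At0 1 0 (fun y => M y i j) x) (hs : At0 1 κ s x) (k : Fin 2) :
    dbar0 κ (fun y => act (M y) (s y)) x k =
      act (dbM M x k) (s x) + act (M x) (dbar0 κ s x k) := by
  have h1 : (fun y => act (M y) (s y)) = fun y => ∑ i, ∑ j, M y i j • elem i j (s y) := by
    funext y
    exact act_eq_sum' _ _
  rw [h1, dbar0_sum fun i _ => At0.sum fun j _ => (hM i j).smul (hs.clm (elem i j)),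
    Finset.sum_apply, act_eq_sum', act_eq_sum', ← Finset.sum_add_distrib]
  refine Finset.sum_congr rfl fun i _ => ?_
  rw [dbar0_sum fun j _ => (hM i j).smul (hs.clm (elem i j)), Finset.sum_apply,
    ← Finset.sum_add_distrib]
  refine Finset.sum_congr rfl fun j _ => ?_
  rw [dbar0_smul (hM i j) (hs.clm (elem i j)), dbar0_clm _ hs]
  rfl

/-- LEIBNIZ RULE for `act` in degree `1` -/
theorem dbar1_act {κ : ℤ} {M : X → Matrix ι ι ℂ} {w : X → Fin 2 → EuclideanSpace ℂ ι} {x : X}
    (hM : ∀ i j, At0 1 0 (fun y => M y i j) x) (hw : At1 1 κ w x) :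
    dbar1 κ (fun y k => act (M y) (w y k)) x =
      (act (dbM M x 0) (w x 1) - act (dbM M x 1) (w x 0)) + act (M x) (dbar1 κ w x) := by
  have h1 : (fun y k => act (M y) (w y k)) =
      fun y => ∑ i, (∑ j, fun k => M y i j • elem i j (w y k)) := by
    funext y k
    simp only [Finset.sum_apply]
    exact act_eq_sum' _ _
  rw [h1, dbar1_sum fun i _ => At1.sum fun j _ => At1.smul (hM i j) (hw.clm (elem i j)),
    act_eq_sum', act_eq_sum', act_eq_sum', ← Finset.sum_sub_distrib, ← Finset.sum_add_distrib]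
  refine Finset.sum_congr rfl fun i _ => ?_
  rw [dbar1_sum fun j _ => At1.smul (hM i j) (hw.clm (elem i j)), ← Finset.sum_sub_distrib,
    ← Finset.sum_add_distrib]
  refine Finset.sum_congr rfl fun j _ => ?_
  rw [dbar1_smul (hM i j) (hw.clm (elem i j)), dbar1_clm _ hw]
  rfl

/-- Leibniz rule for products of matrices -/
theorem dbM_mul {M N : X → Matrix ι ι ℂ} {x : X} (hM : ∀ i j, At0 1 0 (fun y => M y i j) x)
    (hN : ∀ i j, At0 1 0 (fun y => N y i j) x) (k : Fin 2) :
    dbM (fun y => M y * N y) x k = dbM M x k * N x + M x * dbM N x k := by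
  ext i j
  have h1 : (fun y => (M y * N y) i j) = fun y => ∑ l, M y i l * N y l j := by
    funext y
    rw [Matrix.mul_apply]
  simp only [dbM, Matrix.of_apply, Matrix.add_apply, Matrix.mul_apply]
  rw [show (fun y => ∑ l, M y i l * N y l j) = fun y => ∑ l, M y i l * N y l j from rfl,
    dbar0_sum fun l _ => (hM i l).mul (hN l j), Finset.sum_apply, ← Finset.sum_add_distrib]
  exact Finset.sum_congr rfl fun l _ => dbar0_mul (hM i l) (hN l j) k

end leib

/-! ### rank one projectors -/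

section proj

/-- a hermitian projector of trace one is `v v^*` with a unit vector `v` -/
theorem rank_one_vec {P : Matrix ι ι ℂ} (hh : Pᴴ = P) (hi : P * P = P) (ht : P.trace = 1) :
    ∃ v : ι → ℂ, (∀ i j, P i j = v i * conj (v j)) ∧ ∑ i, v i * conj (v i) = 1 := by
  -- a nonzero diagonal entry
  have hne : ∃ k, P k k ≠ 0 := by
    by_contra h
    push Not at h
    have : P.trace = 0 := Finset.sum_eq_zero fun k _ => h k
    rw [ht] at this
    exact one_ne_zero this
  obtain ⟨k, hk⟩ := hne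
  have hconj : ∀ i j, conj (P i j) = P j i := fun i j => by
    have := congrFun (congrFun hh j) i
    simpa [Matrix.conjTranspose_apply] using this
  have hsum : ∀ i j, ∑ l, P i l * P l j = P i j := fun i j => by
    have := congrFun (congrFun hi i) j
    rwa [Matrix.mul_apply] at this
  -- `P k k` is real positive
  have hkk : P k k = ((∑ l, ‖P l k‖ ^ 2 : ℝ) : ℂ) := by
    rw [← hsum k k]
    push_cast
    refine Finset.sum_congr rfl fun l _ => ?_
    rw [← hconj l k, mul_comm, Complex.mul_conj, Complex.normSq_eq_norm_sq]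
    push_cast
    rfl
  set r : ℝ := ∑ l, ‖P l k‖ ^ 2 with hr
  have hr0 : 0 < r := by
    have h0 : 0 ≤ r := Finset.sum_nonneg fun l _ => by positivity
    rcases h0.lt_or_eq with h | h
    · exact h
    · exfalso
      apply hk
      rw [hkk, ← h]
      simp
  set v : ι → ℂ := fun i => P i k / (Real.sqrt r : ℂ) with hv
  have hsq : (Real.sqrt r : ℂ) * (Real.sqrt r : ℂ) = (r : ℂ) := by
    rw [← Complex.ofReal_mul, Real.mul_self_sqrt hr0.le]
  have hsq0 : (Real.sqrt r : ℂ) ≠ 0 := by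
    rw [Ne, Complex.ofReal_eq_zero]
    exact (Real.sqrt_pos.2 hr0).ne'
  have hr0' : (r : ℂ) ≠ 0 := by exact_mod_cast hr0.ne'
  have hvv : ∀ i j, v i * conj (v j) = P i k * P k j / r := by
    intro i j
    simp only [hv, map_div₀, Complex.conj_ofReal, hconj]
    rw [div_mul_div_comm, hsq]
  -- the difference is a hermitian projector with trace zero
  set Q : Matrix ι ι ℂ := Matrix.of fun i j => P i j - v i * conj (v j) with hQ
  have hPv : ∀ i, ∑ l, P i l * v l = v i := by
    intro i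
    have : ∑ l, P i l * v l = (∑ l, P i l * P l k) / (Real.sqrt r : ℂ) := by
      rw [Finset.sum_div]
      exact Finset.sum_congr rfl fun l _ => by simp only [hv]; ring
    rw [this, hsum]
  have hvP : ∀ j, ∑ l, conj (v l) * P l j = conj (v j) := by
    intro j
    have h1 := congrArg conj (hPv j)
    rw [map_sum] at h1
    rw [← h1]
    refine Finset.sum_congr rfl fun l _ => ?_
    rw [map_mul, hconj]
    ring
  have hnorm : ∑ i, v i * conj (v i) = 1 := by
    have h1 : ∑ i, v i * conj (v i) = (∑ i, P k i * P i k) / r := by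
      rw [Finset.sum_div]
      refine Finset.sum_congr rfl fun i _ => ?_
      rw [hvv]
      ring
    rw [h1, hsum, hkk]
    exact div_self hr0'
  have hnorm' : ∑ i, conj (v i) * v i = 1 := by
    rw [← hnorm]
    exact Finset.sum_congr rfl fun i _ => mul_comm _ _
  have hQQ : ∀ i j, ∑ l, Q i l * Q l j = Q i j := by
    intro i j
    simp only [hQ, Matrix.of_apply]
    have h1 : ∀ l, (P i l - v i * conj (v l)) * (P l j - v l * conj (v j)) =
        P i l * P l j - (P i l * v l) * conj (v j) - v i * (conj (v l) * P l j) +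
          v i * conj (v j) * (conj (v l) * v l) := fun l => by ring
    rw [Finset.sum_congr rfl fun l _ => h1 l, Finset.sum_add_distrib, Finset.sum_sub_distrib,
      Finset.sum_sub_distrib, ← Finset.sum_mul, ← Finset.mul_sum, ← Finset.mul_sum, hsum, hPv, hvP,
      hnorm']
    ring
  have hQc : ∀ i j, conj (Q i j) = Q j i := by
    intro i j
    simp only [hQ, Matrix.of_apply, map_sub, map_mul, hconj, Complex.conj_conj]
    ring
  have hQt : ∑ i, Q i i = 0 := by
    simp only [hQ, Matrix.of_apply, Finset.sum_sub_distrib]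
    have h1 : ∑ i, P i i = 1 := ht
    rw [h1, hnorm, sub_self]
  have hQn : ∑ i, ∑ l, ‖Q l i‖ ^ 2 = 0 := by
    have h1 : ((∑ i, ∑ l, ‖Q l i‖ ^ 2 : ℝ) : ℂ) = ∑ i, Q i i := by
      push_cast
      refine Finset.sum_congr rfl fun i _ => ?_
      rw [← hQQ i i]
      refine Finset.sum_congr rfl fun l _ => ?_
      rw [← hQc l i, mul_comm, Complex.mul_conj, Complex.normSq_eq_norm_sq]
      push_cast
      rfl
    rw [hQt] at h1
    exact_mod_cast h1
  have hQ0 : ∀ i j, Q i j = 0 := by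
    intro i j
    have h1 := (Finset.sum_eq_zero_iff_of_nonneg fun i _ => Finset.sum_nonneg fun l _ => by
      positivity).1 hQn j (Finset.mem_univ _)
    have h2 := (Finset.sum_eq_zero_iff_of_nonneg fun l _ => by positivity).1 h1 i
      (Finset.mem_univ _)
    simpa using h2
  refine ⟨v, fun i j => ?_, hnorm⟩
  have := hQ0 i j
  simp only [hQ, Matrix.of_apply] at this
  linear_combination this

variable (L : LB X ι) (x : X)

theorem exists_vec : ∃ v : ι → ℂ, (∀ i j, L.P x i j = v i * conj (v j)) ∧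
    ∑ i, v i * conj (v i) = 1 := rank_one_vec (L.herm x) (L.idem x) (L.tr x)

/-- `P M P = tr (P M) P` -/
theorem P_mul_mul_P (M : Matrix ι ι ℂ) : L.P x * M * L.P x = (L.P x * M).trace • L.P x := by
  obtain ⟨v, hv, h1⟩ := L.exists_vec x
  ext i j
  simp only [Matrix.mul_apply, Matrix.smul_apply, Matrix.trace, Matrix.diag_apply, smul_eq_mul, hv]
  have h2 : ∀ l, (∑ m, v i * conj (v m) * M m l) * (v l * conj (v j)) =
      v i * conj (v j) * ∑ m, (v l * conj (v m) * M m l) := by
    intro l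
    rw [Finset.sum_mul, Finset.mul_sum]
    exact Finset.sum_congr rfl fun m _ => by ring
  rw [Finset.sum_congr rfl fun l _ => h2 l, ← Finset.mul_sum, mul_comm]

theorem act_act_P (v : EuclideanSpace ℂ ι) : act (L.P x) (act (L.P x) v) = act (L.P x) v := by
  rw [← act_mul, L.idem]

/-- on the fibre, `P M v = tr(P M) v` -/
theorem act_P_act {M : Matrix ι ι ℂ} {v : EuclideanSpace ℂ ι} (hv : act (L.P x) v = v) :
    act (L.P x) (act M v) = (L.P x * M).trace • v := by
  conv_lhs => rw [← hv]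
  rw [← act_mul, ← act_mul, P_mul_mul_P, smul_act, hv]

/-- two vectors of a fibre are proportional -/
theorem fibre_smul {v w : EuclideanSpace ℂ ι} (hv : act (L.P x) v = v) (hw : act (L.P x) w = w)
    (hv0 : v ≠ 0) : ∃ c : ℂ, w = c • v := by
  obtain ⟨u, hu, h1⟩ := L.exists_vec x
  have key : ∀ y : EuclideanSpace ℂ ι, act (L.P x) y = y →
      ∀ i, y i = (∑ j, conj (u j) * y j) * u i := by
    intro y hy i
    conv_lhs => rw [← hy]
    rw [act_apply, Finset.sum_mul]
    refine Finset.sum_congr rfl fun j _ => ?_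
    rw [hu]
    ring
  set a := ∑ j, conj (u j) * v j with ha
  have ha0 : a ≠ 0 := by
    intro h0
    apply hv0
    ext i
    rw [key v hv i, ← ha, h0]
    simp
  refine ⟨(∑ j, conj (u j) * w j) / a, ?_⟩
  ext i
  rw [PiLp.smul_apply, smul_eq_mul, key w hw i, key v hv i, ← ha]
  field_simp

end proj

/-! ### derivatives of the projector -/

section deriv

variable [IsManifold 𝓘(ℂ, C2) ω X]
variable (L : LB X ι)

theorem atP {n : WithTop ℕ∞} (hn : n ≤ ∞) (x : X) (i j : ι) : At0 n 0 (fun y => L.P y i j) x :=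
  ((L.smooth i j).at x).of_le hn

theorem dbM_P (x : X) (k : Fin 2) : dbM L.P x k * L.P x + L.P x * dbM L.P x k = dbM L.P x k := by
  have h := dbM_mul (M := L.P) (N := L.P) (x := x) (fun i j => L.atP (by simp) x i j)
    (fun i j => L.atP (by simp) x i j) k
  have h1 : (fun y => L.P y * L.P y) = L.P := funext fun y => L.idem y
  rw [h1] at h
  exact h.symm

/-- `P (∂̄P) P = 0` -/
theorem P_dbM_P (x : X) (k : Fin 2) : L.P x * dbM L.P x k * L.P x = 0 := by
  have h := L.dbM_P x k
  have h2 : L.P x * (dbM L.P x k * L.P x + L.P x * dbM L.P x k) * L.P x =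
      L.P x * dbM L.P x k * L.P x := by rw [h]
  have h3 : L.P x * (dbM L.P x k * L.P x + L.P x * dbM L.P x k) * L.P x =
      L.P x * dbM L.P x k * (L.P x * L.P x) + (L.P x * L.P x) * dbM L.P x k * L.P x := by
    noncomm_ring
  rw [h3, L.idem] at h2
  exact left_eq_add.1 h2.symm

/-- `∂̄s = (∂̄P) s + P ∂̄s` for sections -/
theorem dbar0_sec {κ : ℤ} {s : X → EuclideanSpace ℂ ι} {x : X}
    (hs : ∀ᶠ y in 𝓝 x, act (L.P y) (s y) = s y) (h1 : At0 1 κ s x) (k : Fin 2) :
    dbar0 κ s x k = act (dbM L.P x k) (s x) + act (L.P x) (dbar0 κ s x k) := by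
  rw [← dbar0_act (fun i j => L.atP (by simp) x i j) h1]
  have h2 : s =ᶠ[𝓝 x] fun y => act (L.P y) (s y) := by
    filter_upwards [hs] with y hy
    exact hy.symm
  rw [dbar0_congr h2]

theorem F02_eq (x : X) : L.F02 x = (L.P x * (dbM L.P x 0 * dbM L.P x 1 -
    dbM L.P x 1 * dbM L.P x 0)).trace := rfl

/-- the operators preserve sections -/
theorem sec1_db0 {a : X → Fin 2 → ℂ} {κ : ℤ} {s : X → EuclideanSpace ℂ ι} {x : X}
    (hs : act (L.P x) (s x) = s x) (i : Fin 2) :
    act (L.P x) (L.db0 a κ s x i) = L.db0 a κ s x i := by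
  rw [db0, act_add, act_act_P, act_smul, hs]

theorem Sec.db0 {a : X → Fin 2 → ℂ} {κ : ℤ} {s : X → EuclideanSpace ℂ ι} (hs : L.Sec s) :
    L.Sec1 (L.db0 a κ s) := fun x i => L.sec1_db0 (hs x) i

theorem sec_db1 {a : X → Fin 2 → ℂ} {κ : ℤ} {w : X → Fin 2 → EuclideanSpace ℂ ι} {x : X}
    (hw : ∀ i, act (L.P x) (w x i) = w x i) :
    act (L.P x) (L.db1 a κ w x) = L.db1 a κ w x := by
  rw [db1, act_add, act_act_P, act_sub, act_smul, act_smul, hw, hw]

theorem Sec1.db1 {a : X → Fin 2 → ℂ} {κ : ℤ} {w : X → Fin 2 → EuclideanSpace ℂ ι}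
    (hw : L.Sec1 w) : L.Sec (L.db1 a κ w) := fun x => L.sec_db1 (hw x)

variable {L}

/-- regularity -/
theorem at1_db0 {n m : WithTop ℕ∞} (hn : m ≤ ∞) {a : X → Fin 2 → ℂ} {κ : ℤ}
    {s : X → EuclideanSpace ℂ ι} {x : X} (ha : At1 m 0 a x) (hs : At0 n κ s x) (hmn : m + 1 ≤ n) :
    At1 m κ (L.db0 a κ s) x := by
  have h1 : At1 m κ (fun y i => act (L.P y) (dbar0 κ s y i)) x :=
    at1_act (M := L.P) (fun i j => L.atP hn x i j) (hs.dbar hmn)
  have h2 : At1 m κ (fun y i => a y i • s y) x :=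
    ha.smul_right (hs.of_le (le_trans (by simp) hmn))
  exact h1.add h2

theorem at2_db1 {n m : WithTop ℕ∞} (hn : m ≤ ∞) {a : X → Fin 2 → ℂ} {κ : ℤ}
    {w : X → Fin 2 → EuclideanSpace ℂ ι} {x : X} (ha : At1 m 0 a x) (hw : At1 n κ w x)
    (hmn : m + 1 ≤ n) : At2 m κ (L.db1 a κ w) x := by
  have h1 : At2 m κ (fun y => act (L.P y) (dbar1 κ w y)) x :=
    at2_act (M := L.P) (fun i j => L.atP hn x i j) (hw.dbar hmn)
  have h2 : At2 m κ (fun y => a y 0 • w y 1 - a y 1 • w y 0) x :=
    At2.wedge_smul ha (hw.of_le (le_trans (by simp) hmn))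
  exact h1.add h2

theorem reg1_db0 {a : X → Fin 2 → ℂ} {κ : ℤ} {s : X → EuclideanSpace ℂ ι} (ha : Reg1 ∞ 0 a)
    (hs : Reg0 ∞ κ s) : Reg1 ∞ κ (L.db0 a κ s) :=
  reg1_iff_at.2 fun x => at1_db0 le_rfl (ha.at x) (hs.at x) (by simp)

theorem reg2_db1 {a : X → Fin 2 → ℂ} {κ : ℤ} {w : X → Fin 2 → EuclideanSpace ℂ ι}
    (ha : Reg1 ∞ 0 a) (hw : Reg1 ∞ κ w) : Reg2 ∞ κ (L.db1 a κ w) :=
  reg2_iff_at.2 fun x => at2_db1 le_rfl (ha.at x) (hw.at x) (by simp)

/-- CURVATURE: `∂̄_a ∂̄_a s = (F02 + ∂̄a) s` -/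
theorem db1_db0 {a : X → Fin 2 → ℂ} {κ : ℤ} {s : X → EuclideanSpace ℂ ι} {x : X}
    (ha : At1 1 0 a x) (hs : ∀ᶠ y in 𝓝 x, act (L.P y) (s y) = s y) (h2 : At0 2 κ s x) :
    L.db1 a κ (L.db0 a κ s) x = (dbar1 0 a x + L.F02 x) • s x := by
  have h1 : At0 1 κ s x := h2.of_le (by norm_num)
  have hx : act (L.P x) (s x) = s x := hs.self_of_nhds
  have hd : At1 1 κ (dbar0 κ s) x := h2.dbar (by norm_num)
  have hPa : ∀ i j, At0 1 0 (fun y => L.P y i j) x := fun i j => L.atP (by simp) x i j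
  have e1 : L.db0 a κ s = fun y => (fun i => act (L.P y) (dbar0 κ s y i)) + fun i => a y i • s y := by
    funext y i
    rfl
  have hA : At1 1 κ (fun y i => act (L.P y) (dbar0 κ s y i)) x := at1_act hPa hd
  have hB : At1 1 κ (fun y i => a y i • s y) x := ha.smul_right h1
  have e2 : dbar1 κ (L.db0 a κ s) x =
      (act (dbM L.P x 0) (dbar0 κ s x 1) - act (dbM L.P x 1) (dbar0 κ s x 0)) +
      (dbar1 0 a x • s x - (a x 0 • dbar0 κ s x 1 - a x 1 • dbar0 κ s x 0)) := by
    rw [e1, dbar1_add hA hB, dbar1_act hPa hd, dbar1_dbar0 h2, act_zero, add_zero,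
      dbar1_smul_right ha h1]
  -- `P (∂̄_k P) ∂̄_l s = P (∂̄_k P) (∂̄_l P) s`
  have e3 : ∀ k l, act (L.P x) (act (dbM L.P x k) (dbar0 κ s x l)) =
      act (L.P x) (act (dbM L.P x k * dbM L.P x l) (s x)) := by
    intro k l
    conv_lhs => rw [L.dbar0_sec hs h1 l]
    rw [act_add, act_add, ← act_mul, ← act_mul, ← act_mul (dbM L.P x k), ← act_mul,
      ← act_mul (L.P x) (dbM L.P x k * dbM L.P x l)]
    rw [← mul_assoc (L.P x) (dbM L.P x k) (L.P x), P_dbM_P, zero_act, add_zero, mul_assoc]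
  rw [db1, e2, act_add, act_sub, e3 0 1, e3 1 0, act_P_act L x hx, act_P_act L x hx, act_sub,
    act_smul, hx, act_sub, act_smul, act_smul, F02_eq, mul_sub, Matrix.trace_sub]
  simp only [db0]
  module

theorem db1_db0_eq_zero {a : X → Fin 2 → ℂ} (hL : L.IsHol a) {κ : ℤ}
    {s : X → EuclideanSpace ℂ ι} {x : X} (hs : ∀ᶠ y in 𝓝 x, act (L.P y) (s y) = s y)
    (h2 : At0 2 κ s x) : L.db1 a κ (L.db0 a κ s) x = 0 := by
  rw [db1_db0 ((hL.smooth.at x).of_le (by simp)) hs h2, hL.integrable, zero_smul]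

/-! ### additivity and Leibniz rules -/

theorem db0_congr {a : X → Fin 2 → ℂ} {κ : ℤ} {s t : X → EuclideanSpace ℂ ι} {x : X}
    (h : s =ᶠ[𝓝 x] t) : L.db0 a κ s x = L.db0 a κ t x := by
  funext i
  rw [db0, db0, dbar0_congr h, h.self_of_nhds]

theorem db1_congr {a : X → Fin 2 → ℂ} {κ : ℤ} {s t : X → Fin 2 → EuclideanSpace ℂ ι} {x : X}
    (h : s =ᶠ[𝓝 x] t) : L.db1 a κ s x = L.db1 a κ t x := by
  rw [db1, db1, dbar1_congr h, h.self_of_nhds]

theorem db0_add {a : X → Fin 2 → ℂ} {κ : ℤ} {s t : X → EuclideanSpace ℂ ι} {x : X}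
    (hs : At0 1 κ s x) (ht : At0 1 κ t x) :
    L.db0 a κ (fun y => s y + t y) x = L.db0 a κ s x + L.db0 a κ t x := by
  funext i
  simp only [db0, Pi.add_apply, dbar0_add hs ht, act_add]
  module

theorem db0_sub {a : X → Fin 2 → ℂ} {κ : ℤ} {s t : X → EuclideanSpace ℂ ι} {x : X}
    (hs : At0 1 κ s x) (ht : At0 1 κ t x) :
    L.db0 a κ (fun y => s y - t y) x = L.db0 a κ s x - L.db0 a κ t x := by
  funext i
  simp only [db0, Pi.sub_apply, dbar0_sub hs ht, act_sub]
  module

theorem db0_const_smul {a : X → Fin 2 → ℂ} {κ : ℤ} (c : ℂ) {s : X → EuclideanSpace ℂ ι} {x : X}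
    (hs : At0 1 κ s x) : L.db0 a κ (fun y => c • s y) x = c • L.db0 a κ s x := by
  funext i
  simp only [db0, Pi.smul_apply, dbar0_const_smul c hs, act_smul]
  module

theorem db1_add {a : X → Fin 2 → ℂ} {κ : ℤ} {s t : X → Fin 2 → EuclideanSpace ℂ ι} {x : X}
    (hs : At1 1 κ s x) (ht : At1 1 κ t x) :
    L.db1 a κ (fun y => s y + t y) x = L.db1 a κ s x + L.db1 a κ t x := by
  simp only [db1, Pi.add_apply, dbar1_add hs ht, act_add]
  module

theorem db1_sub {a : X → Fin 2 → ℂ} {κ : ℤ} {s t : X → Fin 2 → EuclideanSpace ℂ ι} {x : X}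
    (hs : At1 1 κ s x) (ht : At1 1 κ t x) :
    L.db1 a κ (fun y => s y - t y) x = L.db1 a κ s x - L.db1 a κ t x := by
  simp only [db1, Pi.sub_apply, dbar1_sub hs ht, act_sub]
  module

theorem db1_const_smul {a : X → Fin 2 → ℂ} {κ : ℤ} (c : ℂ) {s : X → Fin 2 → EuclideanSpace ℂ ι}
    {x : X} (hs : At1 1 κ s x) :
    L.db1 a κ (fun y i => c • s y i) x = c • L.db1 a κ s x := by
  simp only [db1, dbar1_const_smul c hs, act_smul]
  module

/-- LEIBNIZ RULE, `f` of weight `κ₁`, `s` of weight `κ₂` -/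
theorem db0_smul' {a : X → Fin 2 → ℂ} {κ₁ κ₂ : ℤ} {f : X → ℂ} {s : X → EuclideanSpace ℂ ι} {x : X}
    (hf : At0 1 κ₁ f x) (hs : At0 1 κ₂ s x) (hx : act (L.P x) (s x) = s x) (i : Fin 2) :
    L.db0 a (κ₁ + κ₂) (fun y => f y • s y) x i =
      dbar0 κ₁ f x i • s x + f x • L.db0 a κ₂ s x i := by
  simp only [db0, dbar0_smul' hf hs, act_add, act_smul, hx]
  module

theorem db0_smul {a : X → Fin 2 → ℂ} {κ : ℤ} {f : X → ℂ} {s : X → EuclideanSpace ℂ ι} {x : X}
    (hf : At0 1 0 f x) (hs : At0 1 κ s x) (hx : act (L.P x) (s x) = s x) (i : Fin 2) :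
    L.db0 a κ (fun y => f y • s y) x i = dbar0 0 f x i • s x + f x • L.db0 a κ s x i := by
  have := db0_smul' (L := L) (a := a) hf hs hx i
  rwa [zero_add] at this

/-- LEIBNIZ RULE, function times form -/
theorem db1_smul' {a : X → Fin 2 → ℂ} {κ₁ κ₂ : ℤ} {f : X → ℂ} {w : X → Fin 2 → EuclideanSpace ℂ ι}
    {x : X} (hf : At0 1 κ₁ f x) (hw : At1 1 κ₂ w x) (hx : ∀ i, act (L.P x) (w x i) = w x i) :
    L.db1 a (κ₁ + κ₂) (fun y i => f y • w y i) x =
      (dbar0 κ₁ f x 0 • w x 1 - dbar0 κ₁ f x 1 • w x 0) + f x • L.db1 a κ₂ w x := by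
  simp only [db1, dbar1_smul' hf hw, act_add, act_sub, act_smul, hx]
  module

theorem db1_smul {a : X → Fin 2 → ℂ} {κ : ℤ} {f : X → ℂ} {w : X → Fin 2 → EuclideanSpace ℂ ι}
    {x : X} (hf : At0 1 0 f x) (hw : At1 1 κ w x) (hx : ∀ i, act (L.P x) (w x i) = w x i) :
    L.db1 a κ (fun y i => f y • w y i) x =
      (dbar0 0 f x 0 • w x 1 - dbar0 0 f x 1 • w x 0) + f x • L.db1 a κ w x := by
  have := db1_smul' (L := L) (a := a) hf hw hx
  rwa [zero_add] at this

/-- LEIBNIZ RULE, scalar form `b` times section -/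
theorem db1_smul_right' {a : X → Fin 2 → ℂ} {κ₁ κ₂ : ℤ} {b : X → Fin 2 → ℂ}
    {s : X → EuclideanSpace ℂ ι} {x : X} (hb : At1 1 κ₁ b x) (hs : At0 1 κ₂ s x)
    (hx : act (L.P x) (s x) = s x) :
    L.db1 a (κ₁ + κ₂) (fun y i => b y i • s y) x =
      dbar1 κ₁ b x • s x - (b x 0 • L.db0 a κ₂ s x 1 - b x 1 • L.db0 a κ₂ s x 0) := by
  simp only [db1, db0, dbar1_smul_right' hb hs, act_sub, act_smul, hx]
  module

theorem db1_smul_right {a : X → Fin 2 → ℂ} {κ : ℤ} {b : X → Fin 2 → ℂ}
    {s : X → EuclideanSpace ℂ ι} {x : X} (hb : At1 1 0 b x) (hs : At0 1 κ s x)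
    (hx : act (L.P x) (s x) = s x) :
    L.db1 a κ (fun y i => b y i • s y) x =
      dbar1 0 b x • s x - (b x 0 • L.db0 a κ s x 1 - b x 1 • L.db0 a κ s x 0) := by
  have := db1_smul_right' (L := L) (a := a) hb hs hx
  rwa [zero_add] at this

/-- change of the holomorphic structure by `∂̄u`: `∂̄_{a + ∂̄u} s = e^{-u} ∂̄_a (e^u s)` -/
theorem db0_exp {a : X → Fin 2 → ℂ} {κ : ℤ} {u : X → ℂ} {s : X → EuclideanSpace ℂ ι} {x : X}
    (hu : At0 1 0 u x) (hs : At0 1 κ s x) (hx : act (L.P x) (s x) = s x) (i : Fin 2) :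
    L.db0 a κ (fun y => Complex.exp (u y) • s y) x i =
      Complex.exp (u x) • L.db0 (fun y j => a y j + dbar0 0 u y j) κ s x i := by
  rw [db0_smul hu.cexp hs hx, dbar0_cexp hu]
  simp only [db0]
  module

theorem db1_exp {a : X → Fin 2 → ℂ} {κ : ℤ} {u : X → ℂ} {w : X → Fin 2 → EuclideanSpace ℂ ι}
    {x : X} (hu : At0 1 0 u x) (hw : At1 1 κ w x) (hx : ∀ i, act (L.P x) (w x i) = w x i) :
    L.db1 a κ (fun y i => Complex.exp (u y) • w y i) x =
      Complex.exp (u x) • L.db1 (fun y j => a y j + dbar0 0 u y j) κ w x := by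
  rw [db1_smul hu.cexp hw hx, dbar0_cexp hu, dbar0_cexp hu]
  simp only [db1]
  module

/-- `a + ∂̄u` is again integrable -/
theorem IsHol.add_dbar {a : X → Fin 2 → ℂ} (h : L.IsHol a) {u : X → ℂ} (hu : Reg0 ∞ 0 u) :
    L.IsHol (fun y j => a y j + dbar0 0 u y j) := by
  refine ⟨reg1_iff_at.2 fun x => (h.smooth.at x).add ((hu.at x).dbar (by simp)), fun x => ?_⟩
  have h1 : dbar1 0 (fun y j => a y j + dbar0 0 u y j) x = dbar1 0 a x + dbar1 0 (dbar0 0 u) x :=
    dbar1_add ((h.smooth.at x).of_le (by simp)) (((hu.at x).of_le (m := 2) (by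
      exact WithTop.coe_le_coe.2 le_top)).dbar (by norm_num))
  rw [h1, dbar1_dbar0 ((hu.at x).of_le (by exact WithTop.coe_le_coe.2 le_top)), add_zero]
  exact h.integrable x

/-- two holomorphic structures differ by a closed form -/
theorem IsHol.sub_closed {a a' : X → Fin 2 → ℂ} (h : L.IsHol a) (h' : L.IsHol a') (x : X) :
    dbar1 0 (fun y => a' y - a y) x = 0 := by
  rw [dbar1_sub ((h'.smooth.at x).of_le (by simp)) ((h.smooth.at x).of_le (by simp))]
  linear_combination h'.integrable x - h.integrable x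

theorem IsHol.add_closed {a : X → Fin 2 → ℂ} (h : L.IsHol a) {b : X → Fin 2 → ℂ}
    (hb : Reg1 ∞ 0 b) (hc : ∀ x, dbar1 0 b x = 0) : L.IsHol (fun y => a y + b y) := by
  refine ⟨reg1_iff_at.2 fun x => (h.smooth.at x).add (hb.at x), fun x => ?_⟩
  rw [dbar1_add ((h.smooth.at x).of_le (by simp)) ((hb.at x).of_le (by simp)), hc, add_zero]
  exact h.integrable x

end deriv

end Vale.Agent.P267.FL.LB
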