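import Vale.Agent.P267.H399.LBCurv

/-! P267 / H399: pairing of a bundle with its dual, tensor products of sections. -/

set_option linter.unusedVariables false
set_option linter.unusedSectionVars false
set_option linter.unusedSimpArgs false

open scoped Manifold ContDiff ComplexConjugate Matrix ComplexOrder
open MeasureTheory Set Filter Topology

noncomputable section

namespace Vale.Agent.P267.FL.LB

variable {X : Type*} [TopologicalSpace X] [ChartedSpace C2 X]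
variable {ι : Type} [Fintype ι] [DecidableEq ι] {ι' : Type} [Fintype ι'] [DecidableEq ι']

/-! ### the bilinear pairing -/

/-- the bilinear pairing `∑ u_i v_i` -/
def bp (u v : EuclideanSpace ℂ ι) : ℂ := ∑ i, u i * v i

/-- the same as a continuous bilinear map -/
def bpL : EuclideanSpace ℂ ι →L[ℂ] EuclideanSpace ℂ ι →L[ℂ] ℂ :=
  ∑ i, (ContinuousLinearMap.mul ℂ ℂ).bilinearComp (ev i) (ev i)

theorem bpL_apply (u v : EuclideanSpace ℂ ι) : bpL u v = bp u v := by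
  simp only [bpL, bp, _root_.sum_apply, ContinuousLinearMap.bilinearComp_apply,
    ContinuousLinearMap.mul_apply', ev_apply]

theorem bp_comm (u v : EuclideanSpace ℂ ι) : bp u v = bp v u :=
  Finset.sum_congr rfl fun i _ => mul_comm _ _

theorem bp_add_left (u u' v : EuclideanSpace ℂ ι) : bp (u + u') v = bp u v + bp u' v := by
  simp only [← bpL_apply, map_add, _root_.add_apply]

theorem bp_add_right (u v v' : EuclideanSpace ℂ ι) : bp u (v + v') = bp u v + bp u v' := by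
  simp only [← bpL_apply, map_add]

theorem bp_sub_left (u u' v : EuclideanSpace ℂ ι) : bp (u - u') v = bp u v - bp u' v := by
  simp only [← bpL_apply, map_sub, _root_.sub_apply]

theorem bp_sub_right (u v v' : EuclideanSpace ℂ ι) : bp u (v - v') = bp u v - bp u v' := by
  simp only [← bpL_apply, map_sub]

theorem bp_smul_left (c : ℂ) (u v : EuclideanSpace ℂ ι) : bp (c • u) v = c * bp u v := by
  simp only [← bpL_apply, map_smul, _root_.smul_apply, smul_eq_mul]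

theorem bp_smul_right (c : ℂ) (u v : EuclideanSpace ℂ ι) : bp u (c • v) = c * bp u v := by
  simp only [← bpL_apply, map_smul, smul_eq_mul]

theorem bp_neg_left (u v : EuclideanSpace ℂ ι) : bp (-u) v = -bp u v := by
  simp only [← bpL_apply, map_neg, _root_.neg_apply]

theorem bp_neg_right (u v : EuclideanSpace ℂ ι) : bp u (-v) = -bp u v := by
  simp only [← bpL_apply, map_neg]

theorem bp_zero_left (v : EuclideanSpace ℂ ι) : bp 0 v = 0 := by
  simp only [← bpL_apply, map_zero, _root_.zero_apply]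

theorem bp_zero_right (u : EuclideanSpace ℂ ι) : bp u 0 = 0 := by
  simp only [← bpL_apply, map_zero]

theorem bp_sum_left {κ : Type*} (S : Finset κ) (f : κ → EuclideanSpace ℂ ι)
    (v : EuclideanSpace ℂ ι) : bp (∑ k ∈ S, f k) v = ∑ k ∈ S, bp (f k) v := by
  simp only [← bpL_apply, map_sum, _root_.sum_apply]

theorem bp_sum_right {κ : Type*} (S : Finset κ) (u : EuclideanSpace ℂ ι)
    (f : κ → EuclideanSpace ℂ ι) : bp u (∑ k ∈ S, f k) = ∑ k ∈ S, bp u (f k) := by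
  simp only [← bpL_apply, map_sum]

theorem bp_act (M : Matrix ι ι ℂ) (u v : EuclideanSpace ℂ ι) :
    bp (act M u) v = bp u (act Mᵀ v) := by
  simp only [bp, act_apply, Finset.sum_mul, Finset.mul_sum, Matrix.transpose_apply]
  rw [Finset.sum_comm]
  exact Finset.sum_congr rfl fun i _ => Finset.sum_congr rfl fun j _ => by ring

theorem norm_bp_le (u v : EuclideanSpace ℂ ι) : ‖bp u v‖ ≤ ‖u‖ * ‖v‖ := by
  have h1 : bp u v = inner ℂ (WithLp.toLp 2 fun i => conj (u i)) v := by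
    simp only [bp, PiLp.inner_apply, RCLike.inner_apply, Complex.conj_conj]
    exact Finset.sum_congr rfl fun i _ => mul_comm _ _
  have h2 : ‖(WithLp.toLp 2 fun i => conj (u i) : EuclideanSpace ℂ ι)‖ = ‖u‖ := by
    rw [EuclideanSpace.norm_eq, EuclideanSpace.norm_eq]
    simp
  rw [h1, ← h2]
  exact norm_inner_le_norm _ _

/-- a nonzero vector of the fibre pairs nontrivially with the dual fibre -/
theorem exists_bp_ne (L : LB X ι) {x : X} {u : EuclideanSpace ℂ ι} (hu : act (L.P x) u = u)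
    (h0 : u ≠ 0) : bp u (act (L.dual.P x) (WithLp.toLp 2 fun i => conj (u i))) ≠ 0 := by
  have h1 : bp u (act (L.dual.P x) (WithLp.toLp 2 fun i => conj (u i))) = (‖u‖ ^ 2 : ℝ) := by
    have h2 : L.dual.P x = (L.P x)ᵀ := rfl
    rw [h2, ← bp_act, hu, EuclideanSpace.norm_sq_eq]
    simp only [bp]
    push_cast
    refine Finset.sum_congr rfl fun i _ => ?_
    rw [Complex.mul_conj, Complex.normSq_eq_norm_sq]
    push_cast
    rfl
  rw [h1, Ne, Complex.ofReal_eq_zero]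
  exact pow_ne_zero 2 (norm_ne_zero_iff.2 h0)

/-- two elements of the fibre and of the dual fibre: if the pairing vanishes, one of them does -/
theorem bp_eq_zero (L : LB X ι) {x : X} {u v : EuclideanSpace ℂ ι} (hu : act (L.P x) u = u)
    (hv : act (L.dual.P x) v = v) (h : bp u v = 0) : u = 0 ∨ v = 0 := by
  by_contra hne
  push Not at hne
  obtain ⟨hu0, hv0⟩ := hne
  set w : EuclideanSpace ℂ ι := act (L.dual.P x) (WithLp.toLp 2 fun i => conj (u i)) with hw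
  have hww : act (L.dual.P x) w = w := L.dual.act_act_P x _
  obtain ⟨c, hc⟩ := L.dual.fibre_smul x hv hww hv0
  apply L.exists_bp_ne hu hu0
  rw [← hw, hc, bp_smul_right, h, mul_zero]

section

variable [IsManifold 𝓘(ℂ, C2) ω X] {L : LB X ι} {L' : LB X ι'}

theorem at0_bp {n : WithTop ℕ∞} {κ₁ κ₂ : ℤ} {s t : X → EuclideanSpace ℂ ι} {x : X}
    (hs : At0 n κ₁ s x) (ht : At0 n κ₂ t x) : At0 n (κ₁ + κ₂) (fun y => bp (s y) (t y)) x := by
  simp only [← bpL_apply]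
  exact hs.bilin ht

theorem at1_bp {n : WithTop ℕ∞} {κ₁ κ₂ : ℤ} {s : X → EuclideanSpace ℂ ι}
    {t : X → Fin 2 → EuclideanSpace ℂ ι} {x : X} (hs : At0 n κ₁ s x) (ht : At1 n κ₂ t x) :
    At1 n (κ₁ + κ₂) (fun y i => bp (s y) (t y i)) x := by
  simp only [← bpL_apply]
  exact At1.bilin hs ht

theorem at1_bp' {n : WithTop ℕ∞} {κ₁ κ₂ : ℤ} {s : X → Fin 2 → EuclideanSpace ℂ ι}
    {t : X → EuclideanSpace ℂ ι} {x : X} (hs : At1 n κ₁ s x) (ht : At0 n κ₂ t x) :
    At1 n (κ₁ + κ₂) (fun y i => bp (s y i) (t y)) x := by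
  simp only [← bpL_apply]
  exact At1.bilin' hs ht

theorem at2_bp {n : WithTop ℕ∞} {κ₁ κ₂ : ℤ} {s t : X → EuclideanSpace ℂ ι} {x : X}
    (hs : At0 n κ₁ s x) (ht : At2 n κ₂ t x) : At2 n (κ₁ + κ₂) (fun y => bp (s y) (t y)) x := by
  simp only [← bpL_apply]
  exact At2.bilin hs ht

theorem at2_bp' {n : WithTop ℕ∞} {κ₁ κ₂ : ℤ} {s t : X → EuclideanSpace ℂ ι} {x : X}
    (hs : At2 n κ₁ s x) (ht : At0 n κ₂ t x) : At2 n (κ₁ + κ₂) (fun y => bp (s y) (t y)) x := by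
  simp only [← bpL_apply]
  exact At2.bilin' hs ht

/-- wedge product -/
theorem at2_bp11 {n : WithTop ℕ∞} {κ₁ κ₂ : ℤ} {s t : X → Fin 2 → EuclideanSpace ℂ ι} {x : X}
    (hs : At1 n κ₁ s x) (ht : At1 n κ₂ t x) :
    At2 n (κ₁ + κ₂) (fun y => bp (s y 0) (t y 1) - bp (s y 1) (t y 0)) x := by
  simp only [← bpL_apply]
  exact At2.bilin11 hs ht

/-- `∂̄⟨s,t⟩ = ⟨∂̄s,t⟩ + ⟨s,∂̄t⟩`, `s` in `K^{κ₁} ⊗ L`, `t` in `K^{κ₂} ⊗ L^*` -/
theorem dbar0_bp {a : X → Fin 2 → ℂ} {κ₁ κ₂ : ℤ} {s t : X → EuclideanSpace ℂ ι} {x : X}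
    (hs : At0 1 κ₁ s x) (ht : At0 1 κ₂ t x) (hsx : act (L.P x) (s x) = s x)
    (htx : act (L.dual.P x) (t x) = t x) (i : Fin 2) :
    dbar0 (κ₁ + κ₂) (fun y => bp (s y) (t y)) x i =
      bp (L.db0 a κ₁ s x i) (t x) + bp (s x) (L.dual.db0 (-a) κ₂ t x i) := by
  have h1 : dbar0 (κ₁ + κ₂) (fun y => bp (s y) (t y)) x i =
      bp (dbar0 κ₁ s x i) (t x) + bp (s x) (dbar0 κ₂ t x i) := by
    simp only [← bpL_apply]
    exact dbar0_bilin hs ht i
  have hd : L.dual.P x = (L.P x)ᵀ := rfl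
  have h2 : bp (act (L.P x) (dbar0 κ₁ s x i)) (t x) = bp (dbar0 κ₁ s x i) (t x) := by
    rw [bp_act, ← hd, htx]
  have h3 : bp (s x) (act (L.dual.P x) (dbar0 κ₂ t x i)) = bp (s x) (dbar0 κ₂ t x i) := by
    rw [hd, ← bp_act, hsx]
  rw [h1, db0, db0, bp_add_left, bp_add_right, h2, h3, bp_smul_left, bp_smul_right, Pi.neg_apply,
    Pi.neg_apply]
  ring

/-- `∂̄⟨s,η⟩ = ⟨∂̄s ∧ η⟩ + ⟨s,∂̄η⟩` -/
theorem dbar1_bp {a : X → Fin 2 → ℂ} {κ₁ κ₂ : ℤ} {s : X → EuclideanSpace ℂ ι}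
    {t : X → Fin 2 → EuclideanSpace ℂ ι} {x : X} (hs : At0 1 κ₁ s x) (ht : At1 1 κ₂ t x)
    (hsx : act (L.P x) (s x) = s x) (htx : ∀ i, act (L.dual.P x) (t x i) = t x i) :
    dbar1 (κ₁ + κ₂) (fun y i => bp (s y) (t y i)) x =
      (bp (L.db0 a κ₁ s x 0) (t x 1) - bp (L.db0 a κ₁ s x 1) (t x 0)) +
        bp (s x) (L.dual.db1 (-a) κ₂ t x) := by
  have h1 : dbar1 (κ₁ + κ₂) (fun y i => bp (s y) (t y i)) x =
      (bp (dbar0 κ₁ s x 0) (t x 1) - bp (dbar0 κ₁ s x 1) (t x 0)) + bp (s x) (dbar1 κ₂ t x) := by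
    simp only [← bpL_apply]
    exact dbar1_bilin hs ht
  have hd : L.dual.P x = (L.P x)ᵀ := rfl
  have h2 : ∀ i j, bp (act (L.P x) (dbar0 κ₁ s x i)) (t x j) = bp (dbar0 κ₁ s x i) (t x j) := by
    intro i j
    rw [bp_act, ← hd, htx]
  have h3 : bp (s x) (act (L.dual.P x) (dbar1 κ₂ t x)) = bp (s x) (dbar1 κ₂ t x) := by
    rw [hd, ← bp_act, hsx]
  rw [h1, db0, db0, db1]
  simp only [bp_add_left, bp_add_right, bp_sub_right, h2, h3, bp_smul_left, bp_smul_right,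
    Pi.neg_apply]
  ring

/-- `∂̄⟨w,t⟩ = ⟨∂̄w,t⟩ - ⟨w ∧ ∂̄t⟩` -/
theorem dbar1_bp' {a : X → Fin 2 → ℂ} {κ₁ κ₂ : ℤ} {w : X → Fin 2 → EuclideanSpace ℂ ι}
    {t : X → EuclideanSpace ℂ ι} {x : X} (hw : At1 1 κ₁ w x) (ht : At0 1 κ₂ t x)
    (hwx : ∀ i, act (L.P x) (w x i) = w x i) (htx : act (L.dual.P x) (t x) = t x) :
    dbar1 (κ₁ + κ₂) (fun y i => bp (w y i) (t y)) x =
      bp (L.db1 a κ₁ w x) (t x) -
        (bp (w x 0) (L.dual.db0 (-a) κ₂ t x 1) - bp (w x 1) (L.dual.db0 (-a) κ₂ t x 0)) := by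
  have h1 : dbar1 (κ₁ + κ₂) (fun y i => bp (w y i) (t y)) x =
      bp (dbar1 κ₁ w x) (t x) - (bp (w x 0) (dbar0 κ₂ t x 1) - bp (w x 1) (dbar0 κ₂ t x 0)) := by
    simp only [← bpL_apply]
    exact dbar1_bilin' hw ht
  have hd : L.dual.P x = (L.P x)ᵀ := rfl
  have h2 : bp (act (L.P x) (dbar1 κ₁ w x)) (t x) = bp (dbar1 κ₁ w x) (t x) := by
    rw [bp_act, ← hd, htx]
  have h3 : ∀ i j, bp (w x i) (act (L.dual.P x) (dbar0 κ₂ t x j)) = bp (w x i) (dbar0 κ₂ t x j) := by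
    intro i j
    rw [hd, ← bp_act, hwx]
  rw [h1, db0, db0, db1]
  simp only [bp_add_left, bp_add_right, bp_sub_left, h2, h3, bp_smul_left, bp_smul_right,
    Pi.neg_apply]
  ring

end

/-! ### tensor products -/

/-- tensor product of vectors -/
def ten (u : EuclideanSpace ℂ ι) (v : EuclideanSpace ℂ ι') : EuclideanSpace ℂ (ι × ι') :=
  WithLp.toLp 2 fun p => u p.1 * v p.2

theorem ten_apply (u : EuclideanSpace ℂ ι) (v : EuclideanSpace ℂ ι') (p : ι × ι') :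
    ten u v p = u p.1 * v p.2 := rfl

/-- the same as a continuous bilinear map -/
def tenL : EuclideanSpace ℂ ι →L[ℂ] EuclideanSpace ℂ ι' →L[ℂ] EuclideanSpace ℂ (ι × ι') :=
  LinearMap.toContinuousLinearMap
    ((LinearMap.toContinuousLinearMap : (EuclideanSpace ℂ ι' →ₗ[ℂ] EuclideanSpace ℂ (ι × ι')) ≃ₗ[ℂ]
      (EuclideanSpace ℂ ι' →L[ℂ] EuclideanSpace ℂ (ι × ι'))).toLinearMap ∘ₗ
    LinearMap.mk₂ ℂ (fun u v => ten u v)
      (fun u u' v => by ext p; simp only [ten_apply, PiLp.add_apply]; ring)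
      (fun c u v => by ext p; simp only [ten_apply, PiLp.smul_apply, smul_eq_mul]; ring)
      (fun u v v' => by ext p; simp only [ten_apply, PiLp.add_apply]; ring)
      (fun c u v => by ext p; simp only [ten_apply, PiLp.smul_apply, smul_eq_mul]; ring))

theorem tenL_apply (u : EuclideanSpace ℂ ι) (v : EuclideanSpace ℂ ι') : tenL u v = ten u v := rfl

attribute [irreducible] tenL

theorem ten_add_left (u u' : EuclideanSpace ℂ ι) (v : EuclideanSpace ℂ ι') :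
    ten (u + u') v = ten u v + ten u' v := by
  simp only [← tenL_apply, map_add, _root_.add_apply]

theorem ten_add_right (u : EuclideanSpace ℂ ι) (v v' : EuclideanSpace ℂ ι') :
    ten u (v + v') = ten u v + ten u v' := by
  simp only [← tenL_apply, map_add]

theorem ten_smul_left (c : ℂ) (u : EuclideanSpace ℂ ι) (v : EuclideanSpace ℂ ι') :
    ten (c • u) v = c • ten u v := by
  simp only [← tenL_apply, map_smul, _root_.smul_apply]

theorem ten_smul_right (c : ℂ) (u : EuclideanSpace ℂ ι) (v : EuclideanSpace ℂ ι') :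
    ten u (c • v) = c • ten u v := by
  simp only [← tenL_apply, map_smul]

theorem ten_sub_left (u u' : EuclideanSpace ℂ ι) (v : EuclideanSpace ℂ ι') :
    ten (u - u') v = ten u v - ten u' v := by
  simp only [← tenL_apply, map_sub, _root_.sub_apply]

theorem ten_sub_right (u : EuclideanSpace ℂ ι) (v v' : EuclideanSpace ℂ ι') :
    ten u (v - v') = ten u v - ten u v' := by
  simp only [← tenL_apply, map_sub]

theorem act_ten (M : Matrix ι ι ℂ) (N : Matrix ι' ι' ℂ) (u : EuclideanSpace ℂ ι)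
    (v : EuclideanSpace ℂ ι') :
    act (Matrix.kroneckerMap (· * ·) M N) (ten u v) = ten (act M u) (act N v) := by
  ext p
  simp only [act_apply, ten_apply, Matrix.kroneckerMap_apply]
  rw [Fintype.sum_prod_type, Finset.sum_mul_sum]
  exact Finset.sum_congr rfl fun i _ => Finset.sum_congr rfl fun j _ => by ring

theorem norm_ten (u : EuclideanSpace ℂ ι) (v : EuclideanSpace ℂ ι') :
    ‖ten u v‖ = ‖u‖ * ‖v‖ := by
  rw [EuclideanSpace.norm_eq, EuclideanSpace.norm_eq, EuclideanSpace.norm_eq,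
    ← Real.sqrt_mul (by positivity), Fintype.sum_prod_type, Finset.sum_mul_sum]
  congr 1
  refine Finset.sum_congr rfl fun i _ => Finset.sum_congr rfl fun j _ => ?_
  rw [ten_apply, norm_mul, mul_pow]

theorem ten_ne_zero {u : EuclideanSpace ℂ ι} {v : EuclideanSpace ℂ ι'} (hu : u ≠ 0) (hv : v ≠ 0) :
    ten u v ≠ 0 := by
  rw [← norm_ne_zero_iff, norm_ten]
  exact mul_ne_zero (norm_ne_zero_iff.2 hu) (norm_ne_zero_iff.2 hv)

section

variable {L : LB X ι} {L' : LB X ι'}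

theorem act_tensor_P (x : X) (u : EuclideanSpace ℂ ι) (v : EuclideanSpace ℂ ι') :
    act ((L.tensor L').P x) (ten u v) = ten (act (L.P x) u) (act (L'.P x) v) :=
  act_ten _ _ _ _

theorem Sec.ten {s : X → EuclideanSpace ℂ ι} {t : X → EuclideanSpace ℂ ι'} (hs : L.Sec s)
    (ht : L'.Sec t) : (L.tensor L').Sec fun y => ten (s y) (t y) := by
  intro y
  rw [act_tensor_P, hs y, ht y]

theorem Sec1.ten_right {w : X → Fin 2 → EuclideanSpace ℂ ι} {t : X → EuclideanSpace ℂ ι'}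
    (hw : L.Sec1 w) (ht : L'.Sec t) : (L.tensor L').Sec1 fun y i => LB.ten (w y i) (t y) := by
  intro y i
  rw [act_tensor_P, hw y i, ht y]

theorem Sec1.ten_left {s : X → EuclideanSpace ℂ ι} {w : X → Fin 2 → EuclideanSpace ℂ ι'}
    (hs : L.Sec s) (hw : L'.Sec1 w) : (L.tensor L').Sec1 fun y i => LB.ten (s y) (w y i) := by
  intro y i
  rw [act_tensor_P, hs y, hw y i]

variable [IsManifold 𝓘(ℂ, C2) ω X]

theorem at0_ten {n : WithTop ℕ∞} {κ₁ κ₂ : ℤ} {s : X → EuclideanSpace ℂ ι}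
    {t : X → EuclideanSpace ℂ ι'} {x : X} (hs : At0 n κ₁ s x) (ht : At0 n κ₂ t x) :
    At0 n (κ₁ + κ₂) (fun y => ten (s y) (t y)) x := by
  simp only [← tenL_apply]
  exact At0.bilin (V := EuclideanSpace ℂ ι) (W := EuclideanSpace ℂ ι')
      (Z := EuclideanSpace ℂ (ι × ι')) (B := tenL) hs ht

theorem at1_ten {n : WithTop ℕ∞} {κ₁ κ₂ : ℤ} {s : X → EuclideanSpace ℂ ι}
    {t : X → Fin 2 → EuclideanSpace ℂ ι'} {x : X} (hs : At0 n κ₁ s x) (ht : At1 n κ₂ t x) :
    At1 n (κ₁ + κ₂) (fun y i => ten (s y) (t y i)) x := by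
  simp only [← tenL_apply]
  exact At1.bilin (V := EuclideanSpace ℂ ι) (W := EuclideanSpace ℂ ι')
      (Z := EuclideanSpace ℂ (ι × ι')) (B := tenL) hs ht

theorem at1_ten' {n : WithTop ℕ∞} {κ₁ κ₂ : ℤ} {s : X → Fin 2 → EuclideanSpace ℂ ι}
    {t : X → EuclideanSpace ℂ ι'} {x : X} (hs : At1 n κ₁ s x) (ht : At0 n κ₂ t x) :
    At1 n (κ₁ + κ₂) (fun y i => ten (s y i) (t y)) x := by
  simp only [← tenL_apply]
  exact At1.bilin' (V := EuclideanSpace ℂ ι) (W := EuclideanSpace ℂ ι')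
      (Z := EuclideanSpace ℂ (ι × ι')) (B := tenL) hs ht

/-- `∂̄(s ⊗ t) = ∂̄s ⊗ t + s ⊗ ∂̄t` -/
theorem db0_ten {a a' : X → Fin 2 → ℂ} {κ₁ κ₂ : ℤ} {s : X → EuclideanSpace ℂ ι}
    {t : X → EuclideanSpace ℂ ι'} {x : X} (hs : At0 1 κ₁ s x) (ht : At0 1 κ₂ t x)
    (hsx : act (L.P x) (s x) = s x) (htx : act (L'.P x) (t x) = t x) (i : Fin 2) :
    (L.tensor L').db0 (fun y => a y + a' y) (κ₁ + κ₂) (fun y => ten (s y) (t y)) x i =
      ten (L.db0 a κ₁ s x i) (t x) + ten (s x) (L'.db0 a' κ₂ t x i) := by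
  have h1 : dbar0 (κ₁ + κ₂) (fun y => ten (s y) (t y)) x i =
      ten (dbar0 κ₁ s x i) (t x) + ten (s x) (dbar0 κ₂ t x i) := by
    simp only [← tenL_apply]
    exact dbar0_bilin (V := EuclideanSpace ℂ ι) (W := EuclideanSpace ℂ ι')
      (Z := EuclideanSpace ℂ (ι × ι')) (B := tenL) hs ht i
  rw [db0, h1, act_add, act_tensor_P, act_tensor_P, hsx, htx, db0, db0, ten_add_left,
    ten_add_right, ten_smul_left, ten_smul_right, Pi.add_apply, add_smul]
  abel

/-- `∂̄(s ⊗ w) = ∂̄s ∧ w + s ⊗ ∂̄w` -/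
theorem db1_ten {a a' : X → Fin 2 → ℂ} {κ₁ κ₂ : ℤ} {s : X → EuclideanSpace ℂ ι}
    {t : X → Fin 2 → EuclideanSpace ℂ ι'} {x : X} (hs : At0 1 κ₁ s x) (ht : At1 1 κ₂ t x)
    (hsx : act (L.P x) (s x) = s x) (htx : ∀ i, act (L'.P x) (t x i) = t x i) :
    (L.tensor L').db1 (fun y => a y + a' y) (κ₁ + κ₂) (fun y i => ten (s y) (t y i)) x =
      (ten (L.db0 a κ₁ s x 0) (t x 1) - ten (L.db0 a κ₁ s x 1) (t x 0)) +
        ten (s x) (L'.db1 a' κ₂ t x) := by
  have h1 : dbar1 (κ₁ + κ₂) (fun y i => ten (s y) (t y i)) x =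
      (ten (dbar0 κ₁ s x 0) (t x 1) - ten (dbar0 κ₁ s x 1) (t x 0)) +
        ten (s x) (dbar1 κ₂ t x) := by
    simp only [← tenL_apply]
    exact dbar1_bilin (V := EuclideanSpace ℂ ι) (W := EuclideanSpace ℂ ι')
      (Z := EuclideanSpace ℂ (ι × ι')) (B := tenL) hs ht
  rw [db1, h1]
  simp only [act_add, act_sub, act_tensor_P, hsx, htx, db0, db1, ten_add_left, ten_add_right,
    ten_sub_right, ten_smul_left, ten_smul_right, Pi.add_apply, add_smul]
  module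

/-- `∂̄(w ⊗ t) = ∂̄w ⊗ t - w ∧ ∂̄t` -/
theorem db1_ten' {a a' : X → Fin 2 → ℂ} {κ₁ κ₂ : ℤ} {s : X → Fin 2 → EuclideanSpace ℂ ι}
    {t : X → EuclideanSpace ℂ ι'} {x : X} (hs : At1 1 κ₁ s x) (ht : At0 1 κ₂ t x)
    (hsx : ∀ i, act (L.P x) (s x i) = s x i) (htx : act (L'.P x) (t x) = t x) :
    (L.tensor L').db1 (fun y => a y + a' y) (κ₁ + κ₂) (fun y i => ten (s y i) (t y)) x =
      ten (L.db1 a κ₁ s x) (t x) -
        (ten (s x 0) (L'.db0 a' κ₂ t x 1) - ten (s x 1) (L'.db0 a' κ₂ t x 0)) := by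
  have h1 : dbar1 (κ₁ + κ₂) (fun y i => ten (s y i) (t y)) x =
      ten (dbar1 κ₁ s x) (t x) -
        (ten (s x 0) (dbar0 κ₂ t x 1) - ten (s x 1) (dbar0 κ₂ t x 0)) := by
    simp only [← tenL_apply]
    exact dbar1_bilin' (V := EuclideanSpace ℂ ι) (W := EuclideanSpace ℂ ι')
      (Z := EuclideanSpace ℂ (ι × ι')) (B := tenL) hs ht
  rw [db1, h1]
  simp only [act_add, act_sub, act_tensor_P, hsx, htx, db0, db1, ten_add_left, ten_add_right,
    ten_sub_left, ten_smul_left, ten_smul_right, Pi.add_apply, add_smul]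
  module

/-! ### smooth local frames -/

variable (L) in
/-- near every point there is a smooth section without zeros (globally defined) -/
theorem exists_section (x : X) : ∃ s : X → EuclideanSpace ℂ ι, Reg0 ∞ 0 s ∧ L.Sec s ∧
    ∀ᶠ y in 𝓝 x, s y ≠ 0 := by
  obtain ⟨v, hv, h1⟩ := L.exists_vec x
  set v' : EuclideanSpace ℂ ι := WithLp.toLp 2 v with hv'
  have hreg : Reg0 ∞ 0 fun y => act (L.P y) v' :=
    reg0_iff_at.2 fun y => at0_act (M := L.P) (fun i j => L.atP le_rfl y i j) at0_const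
  refine ⟨fun y => act (L.P y) v', hreg, fun y => L.act_act_P y v', ?_⟩
  have hx : act (L.P x) v' = v' := by
    ext i
    rw [act_apply]
    have : ∀ j, L.P x i j * v' j = v i * (v j * conj (v j)) := by
      intro j
      rw [hv, hv']
      change v i * conj (v j) * v j = _
      ring
    rw [Finset.sum_congr rfl fun j _ => this j, ← Finset.mul_sum, h1, mul_one]
  have hv0 : v' ≠ 0 := by
    intro h0
    have h2 : ∀ i, v i = 0 := fun i => by
      have := congrArg (fun w : EuclideanSpace ℂ ι => w i) h0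
      simpa [hv'] using this
    rw [Finset.sum_eq_zero fun i _ => by rw [h2 i, zero_mul]] at h1
    exact zero_ne_one h1
  have hne : act (L.P x) v' ≠ 0 := by rwa [hx]
  exact (Reg0.continuous hreg).continuousAt.eventually_ne hne

/-- the scalar coefficient of a section with respect to a frame is smooth -/
theorem coeff_at0 {n : WithTop ℕ∞} (hn : n ≤ ∞) {κ : ℤ} {e s : X → EuclideanSpace ℂ ι} {x : X}
    (he : At0 n 0 e x) (hex : e x ≠ 0) (hs : At0 n κ s x)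
    (hse : ∀ᶠ y in 𝓝 x, act (L.P y) (s y) = s y) (hee : ∀ᶠ y in 𝓝 x, act (L.P y) (e y) = e y) :
    ∃ c : X → ℂ, At0 n κ c x ∧ ∀ᶠ y in 𝓝 x, s y = c y • e y := by
  -- `c = ⟨s, t⟩ / ⟨e, t⟩` with `t` a coordinate where `e x` is nonzero
  obtain ⟨k, hk⟩ : ∃ k, e x k ≠ 0 := by
    by_contra h
    push Not at h
    exact hex (by ext i; exact h i)
  have h1 : At0 n 0 (fun y => e y k) x := he.clm (ev k)
  have h2 : At0 n κ (fun y => s y k) x := hs.clm (ev k)
  have hne : ∀ᶠ y in 𝓝 x, e y k ≠ 0 := h1.continuousAt.eventually_ne hk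
  refine ⟨fun y => (e y k)⁻¹ * s y k, (h1.inv0 hk).mul h2, ?_⟩
  filter_upwards [hse, hee, hne] with y hy1 hy2 hy3
  have hey : e y ≠ 0 := fun h0 => hy3 (by rw [h0]; rfl)
  obtain ⟨c, hc⟩ := L.fibre_smul y hy2 hy1 hey
  have hc' : s y k = c * e y k := by rw [hc]; rfl
  rw [hc', hc]
  congr 1
  field_simp

end

end Vale.Agent.P267.FL.LB
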