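import Mathlib

/-!
# P267: forms and line bundles on a complex surface -- DEFINITIONS (helper399; packages FORMS, LB)

Model `C2 = Fin 2 → ℂ`; `X` with `[ChartedSpace C2 X] [IsManifold 𝓘(ℂ, C2) ω X]`.

## Conventions
* POINTWISE OBJECTS. A form on `X` is a function on `X`: its value at `x` is the tuple of its
  components at `x` in the preferred coordinates `chartAt C2 x` (i.e. on the tangent space
  `TangentSpace _ x = C2` of Mathlib). Vector space operations are the pointwise ones.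
  If `p : Y → X` is a covering and `Y` carries the pulled back charts (`chartAt y` = `p` followed by
  `chartAt (p y)`), then pullback of forms is composition with `p`, and translation by a deck
  transformation `g` is composition with `g`.
* COEFFICIENTS. `V` is a complex normed space, `κ : ℤ`; everything is written for forms with values
  in `K^κ ⊗ V`, `K` = canonical bundle: `κ = 0` are the `(0,q)`-forms, `κ = 1` the `(2,q)`-forms
  `dz_0 ∧ dz_1 ∧ (...)`, `κ = m` the `m`-canonical forms.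
  `(0,0)`: `s : X → V`;  `(0,1)`: `a : X → Fin 2 → V`, `a = ∑ a_j dz̄_j`;
  `(0,2)`: `b : X → V`, `b dz̄_0 ∧ dz̄_1`.
* `loc0 κ e s`, `loc1 κ e a`, `loc2 κ e b`: the components in the chart `e`, functions on `C2`
  (meaningful on `e.target`, for `e ∈ atlas C2 X`).
* `Reg0 n κ s`, ...: of class `C^n` (`n : WithTop ℕ∞`, smooth: `∞`).
-/

set_option linter.unusedVariables false

open scoped Manifold ContDiff ComplexConjugate Matrix ComplexOrder
open MeasureTheory Set

noncomputable section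

namespace Vale.Agent.P267.FL

/-- the model space `ℂ²` (sup norm) -/
abbrev C2 : Type := Fin 2 → ℂ

section coord

variable {V : Type*} [NormedAddCommGroup V] [NormedSpace ℂ V]

/-- `∂f/∂z_j` -/
def dz (j : Fin 2) (f : C2 → V) (z : C2) : V :=
  (1 / 2 : ℂ) • (fderiv ℝ f z (Pi.single j 1) - Complex.I • fderiv ℝ f z (Pi.single j Complex.I))

/-- `∂f/∂z̄_j` -/
def dzb (j : Fin 2) (f : C2 → V) (z : C2) : V :=
  (1 / 2 : ℂ) • (fderiv ℝ f z (Pi.single j 1) + Complex.I • fderiv ℝ f z (Pi.single j Complex.I))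

end coord

/-- local coordinate systems -/
abbrev Ch (X : Type*) [TopologicalSpace X] := OpenPartialHomeomorph X C2

/-- the Jacobian matrix `(∂z'_p/∂z_i)_{p,i}` at `x` of the change of coordinates from `e` to `e'` -/
def jacM {X : Type*} [TopologicalSpace X] (e e' : Ch X) (x : X) : Matrix (Fin 2) (Fin 2) ℂ :=
  Matrix.of fun p i => dz i (fun z => e' (e.symm z) p) (e x)

variable {X : Type*} [TopologicalSpace X] [ChartedSpace C2 X]

/-- Jacobian matrix at `x` from the coordinates `e` to the preferred coordinates at `x` -/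
def jac (e : Ch X) (x : X) : Matrix (Fin 2) (Fin 2) ℂ := jacM e (chartAt C2 x) x

section forms

variable {V : Type*} [NormedAddCommGroup V] [NormedSpace ℂ V]

/-- component of a `K^κ ⊗ V`-valued function in the chart `e` -/
def loc0 (κ : ℤ) (e : Ch X) (s : X → V) (z : C2) : V :=
  (jac e (e.symm z)).det ^ κ • s (e.symm z)

/-- components of a `K^κ ⊗ V`-valued `(0,1)`-form in the chart `e` -/
def loc1 (κ : ℤ) (e : Ch X) (a : X → Fin 2 → V) (z : C2) (i : Fin 2) : V :=
  (jac e (e.symm z)).det ^ κ • ∑ p, conj (jac e (e.symm z) p i) • a (e.symm z) p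

/-- component of a `K^κ ⊗ V`-valued `(0,2)`-form in the chart `e` -/
def loc2 (κ : ℤ) (e : Ch X) (b : X → V) (z : C2) : V :=
  (jac e (e.symm z)).det ^ κ • conj (jac e (e.symm z)).det • b (e.symm z)

/-- class `C^n` -/
def Reg0 (n : WithTop ℕ∞) (κ : ℤ) (s : X → V) : Prop :=
  ∀ e ∈ atlas C2 X, ContDiffOn ℝ n (loc0 κ e s) e.target

/-- class `C^n` -/
def Reg1 (n : WithTop ℕ∞) (κ : ℤ) (a : X → Fin 2 → V) : Prop :=
  ∀ e ∈ atlas C2 X, ContDiffOn ℝ n (loc1 κ e a) e.target

/-- class `C^n` -/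
def Reg2 (n : WithTop ℕ∞) (κ : ℤ) (b : X → V) : Prop :=
  ∀ e ∈ atlas C2 X, ContDiffOn ℝ n (loc2 κ e b) e.target

/-- `∂̄` in degree `0` -/
def dbar0 (κ : ℤ) (s : X → V) (x : X) (i : Fin 2) : V :=
  dzb i (loc0 κ (chartAt C2 x) s) (chartAt C2 x x)

/-- `∂̄` in degree `1`: `∂̄(∑ a_j dz̄_j) = (∂̄_0 a_1 - ∂̄_1 a_0) dz̄_0 ∧ dz̄_1` -/
def dbar1 (κ : ℤ) (a : X → Fin 2 → V) (x : X) : V :=
  dzb 0 (fun z => loc1 κ (chartAt C2 x) a z 1) (chartAt C2 x x) -
    dzb 1 (fun z => loc1 κ (chartAt C2 x) a z 0) (chartAt C2 x x)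

/-- holomorphic sections of `K^κ` (and, `V`-valued, of `K^κ ⊗ V`) on an open set; `κ = 0`:
holomorphic functions -/
def HolOn (κ : ℤ) (s : X → V) (U : Set X) : Prop :=
  ∀ e ∈ atlas C2 X, DifferentiableOn ℂ (loc0 κ e s) (e.target ∩ e.symm ⁻¹' U)

/-! ### forms of type `(1,0)`, `(1,1)` -/

/-- components of the `(1,0)`-form `∑ c_i dz_i` in the chart `e` -/
def loc10 (e : Ch X) (c : X → Fin 2 → V) (z : C2) (i : Fin 2) : V :=
  ∑ p, jac e (e.symm z) p i • c (e.symm z) p

/-- components of the `(1,1)`-form `∑ g_{ij} dz_i ∧ dz̄_j` in the chart `e` -/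
def loc11 (e : Ch X) (g : X → Matrix (Fin 2) (Fin 2) V) (z : C2) : Matrix (Fin 2) (Fin 2) V :=
  Matrix.of fun i j => ∑ p, ∑ q, (jac e (e.symm z) p i * conj (jac e (e.symm z) q j)) •
    g (e.symm z) p q

/-- class `C^n` -/
def Reg10 (n : WithTop ℕ∞) (c : X → Fin 2 → V) : Prop :=
  ∀ e ∈ atlas C2 X, ContDiffOn ℝ n (loc10 e c) e.target

/-- class `C^n` -/
def Reg11 (n : WithTop ℕ∞) (g : X → Matrix (Fin 2) (Fin 2) V) : Prop :=
  ∀ e ∈ atlas C2 X, ∀ i j, ContDiffOn ℝ n (fun z => loc11 e g z i j) e.target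

/-- `∂` of a function -/
def del0 (s : X → V) (x : X) (i : Fin 2) : V :=
  dz i (fun z => s ((chartAt C2 x).symm z)) (chartAt C2 x x)

/-- `∂` of a `(0,1)`-form: the `(1,1)`-form with coefficients `∂_i a_j` -/
def del1 (a : X → Fin 2 → V) (x : X) : Matrix (Fin 2) (Fin 2) V :=
  Matrix.of fun i j => dz i (fun z => loc1 0 (chartAt C2 x) a z j) (chartAt C2 x x)

/-- `∂̄` of a `(1,0)`-form: the `(1,1)`-form with coefficients `-∂̄_j c_i` -/
def dbar10 (c : X → Fin 2 → V) (x : X) : Matrix (Fin 2) (Fin 2) V :=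
  Matrix.of fun i j => -dzb j (fun z => loc10 (chartAt C2 x) c z i) (chartAt C2 x x)

/-- `∂∂̄u`, coefficients `∂_i ∂̄_j u`; `i ∂∂̄ u` is the real form `i ∑ (ddb u)_{ij} dz_i ∧ dz̄_j` -/
def ddb (u : X → V) (x : X) : Matrix (Fin 2) (Fin 2) V := del1 (dbar0 0 u) x

end forms

/-! ### complex two-forms `F = F20 dz_0∧dz_1 + ∑ F11_{ij} dz_i∧dz̄_j + F02 dz̄_0∧dz̄_1` -/

/-- complex two-forms, by types -/
structure TwoF (X : Type*) where
  f20 : X → ℂ
  f11 : X → Matrix (Fin 2) (Fin 2) ℂ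
  f02 : X → ℂ

/-- complex one-forms `∑ c_i dz_i + ∑ a_j dz̄_j`, by types -/
structure OneF (X : Type*) where
  f10 : X → Fin 2 → ℂ
  f01 : X → Fin 2 → ℂ

/-- smooth two-form -/
structure TwoF.Smooth (F : TwoF X) : Prop where
  s20 : Reg0 ∞ 1 F.f20
  s11 : Reg11 ∞ F.f11
  s02 : Reg2 ∞ 0 F.f02

/-- smooth one-form -/
structure OneF.Smooth (A : OneF X) : Prop where
  s10 : Reg10 ∞ A.f10
  s01 : Reg1 ∞ 0 A.f01

/-- `∂` of a `(1,0)`-form: `(∂_0 c_1 - ∂_1 c_0) dz_0∧dz_1` -/
def del10 (c : X → Fin 2 → ℂ) (x : X) : ℂ :=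
  dz 0 (fun z => loc10 (chartAt C2 x) c z 1) (chartAt C2 x x) -
    dz 1 (fun z => loc10 (chartAt C2 x) c z 0) (chartAt C2 x x)

/-- exterior derivative of a function -/
def dF0 (s : X → ℂ) : OneF X := ⟨del0 s, dbar0 0 s⟩

/-- exterior derivative of a one-form -/
def OneF.d (A : OneF X) : TwoF X := ⟨del10 A.f10, del1 A.f01 + dbar10 A.f10, dbar1 0 A.f01⟩

/-- the `(2,1)`-part of `dF`: coefficient of `dz_0∧dz_1∧dz̄_j`, and
the `(1,2)`-part: coefficient of `dz_i∧dz̄_0∧dz̄_1` -/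
def TwoF.d21 (F : TwoF X) (x : X) (j : Fin 2) : ℂ :=
  dbar0 1 F.f20 x j +
    (dz 0 (fun z => loc11 (chartAt C2 x) F.f11 z 1 j) (chartAt C2 x x) -
      dz 1 (fun z => loc11 (chartAt C2 x) F.f11 z 0 j) (chartAt C2 x x))

/-- the `(1,2)`-part of `dF` -/
def TwoF.d12 (F : TwoF X) (x : X) (i : Fin 2) : ℂ :=
  dz i (loc2 0 (chartAt C2 x) F.f02) (chartAt C2 x x) -
    (dzb 0 (fun z => loc11 (chartAt C2 x) F.f11 z i 1) (chartAt C2 x x) -
      dzb 1 (fun z => loc11 (chartAt C2 x) F.f11 z i 0) (chartAt C2 x x))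

/-- closed two-form -/
def TwoF.Closed (F : TwoF X) : Prop := (∀ x j, F.d21 x j = 0) ∧ ∀ x i, F.d12 x i = 0

/-- wedge of two two-forms: coefficient of `dz_0∧dz_1∧dz̄_0∧dz̄_1` (a `(0,2)`-form with values
in `K`; `dz_0∧dz_1∧dz̄_0∧dz̄_1 = 4 dLebesgue`) -/
def TwoF.wedge (F G : TwoF X) (x : X) : ℂ :=
  F.f20 x * G.f02 x + F.f02 x * G.f20 x -
    (F.f11 x 0 0 * G.f11 x 1 1 + F.f11 x 1 1 * G.f11 x 0 0 -
      F.f11 x 0 1 * G.f11 x 1 0 - F.f11 x 1 0 * G.f11 x 0 1)

/-- real two-form -/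
def TwoF.Real (F : TwoF X) : Prop :=
  ∀ x, F.f20 x = conj (F.f02 x) ∧ ∀ i j, F.f11 x j i = -conj (F.f11 x i j)

/-! ### integration of `(2,2)`-forms -/

/-- `I` is the integral of the `(2,2)`-form `b dz_0∧dz_1∧dz̄_0∧dz̄_1` with `b` compactly supported:
`∑_i ∫ ρ_i · 4 b_{e_i} dLebesgue` for every finite family of charts and compactly supported
continuous weights `ρ_i` with sum `1` on the support of `b`. -/
def HasInt (b : X → ℂ) (I : ℂ) : Prop :=
  ∀ (N : ℕ) (e : Fin N → Ch X) (ρ : Fin N → X → ℝ), (∀ i, e i ∈ atlas C2 X) →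
    (∀ i, Continuous (ρ i)) → (∀ i, HasCompactSupport (ρ i)) →
    (∀ i, tsupport (ρ i) ⊆ (e i).source) → (∀ x ∈ tsupport b, ∑ i, ρ i x = 1) →
    ∑ i, ∫ z in (e i).target, (4 * (ρ i ((e i).symm z) : ℂ)) * loc2 1 (e i) b z = I

open Classical in
/-- the integral of a `(2,2)`-form (junk value `0` if there is none) -/
def intX (b : X → ℂ) : ℂ := if h : ∃ I, HasInt b I then h.choose else 0

/-! ### Hermitian metrics -/

/-- smooth Hermitian metric, fundamental form `i ∑ h_{ij} dz_i∧dz̄_j` -/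
structure IsHerm (h : X → Matrix (Fin 2) (Fin 2) ℂ) : Prop where
  posDef : ∀ x, (h x).PosDef
  smooth : Reg11 ∞ h

/-- trace of a `(1,1)`-form with respect to a Hermitian metric -/
def trh (h : X → Matrix (Fin 2) (Fin 2) ℂ) (g : X → Matrix (Fin 2) (Fin 2) ℂ) (x : X) : ℂ :=
  ((h x)⁻¹ * g x).trace

/-- pointwise norm squared of a `(0,1)`-form: `∑ (h⁻¹)_{ji} a_j conj(a_i)` -/
def nsq1 {V : Type*} [NormedAddCommGroup V] [InnerProductSpace ℂ V]
    (h : X → Matrix (Fin 2) (Fin 2) ℂ) (a : X → Fin 2 → V) (x : X) : ℝ :=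
  (∑ i, ∑ j, (h x)⁻¹ j i * inner ℂ (a x i) (a x j)).re

/-! ### line bundles = rank one projectors -/

/-- A smooth Hermitian line bundle on `X`: a smooth family of orthogonal projectors of rank one
in the fixed space `EuclideanSpace ℂ ι`. -/
structure LB (X : Type*) [TopologicalSpace X] [ChartedSpace C2 X] (ι : Type) [Fintype ι]
    [DecidableEq ι] where
  P : X → Matrix ι ι ℂ
  smooth : ∀ i j, Reg0 ∞ 0 fun x => P x i j
  herm : ∀ x, (P x)ᴴ = P x
  idem : ∀ x, P x * P x = P x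
  tr : ∀ x, (P x).trace = 1

namespace LB

variable {ι : Type} [Fintype ι] [DecidableEq ι] {ι' : Type} [Fintype ι'] [DecidableEq ι']

/-- action of a matrix on the fibre space -/
def act (M : Matrix ι ι ℂ) (v : EuclideanSpace ℂ ι) : EuclideanSpace ℂ ι :=
  WithLp.toLp 2 (M.mulVec v)

/-- (not nec. smooth) sections of the line bundle: `P s = s` -/
def Sec (L : LB X ι) (s : X → EuclideanSpace ℂ ι) : Prop := ∀ x, act (L.P x) (s x) = s x

/-- `L`-valued `(0,1)`-forms -/
def Sec1 (L : LB X ι) (w : X → Fin 2 → EuclideanSpace ℂ ι) : Prop :=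
  ∀ x i, act (L.P x) (w x i) = w x i

/-- the `(0,2)`-part of the curvature `tr (P dP∧dP)` of the connection `P d` -/
def F02 (L : LB X ι) (x : X) : ℂ :=
  (L.P x * ((Matrix.of fun i j => dbar0 0 (fun y => L.P y i j) x 0) *
      (Matrix.of fun i j => dbar0 0 (fun y => L.P y i j) x 1) -
    (Matrix.of fun i j => dbar0 0 (fun y => L.P y i j) x 1) *
      (Matrix.of fun i j => dbar0 0 (fun y => L.P y i j) x 0))).trace

/-- the `(2,0)`-part -/
def F20 (L : LB X ι) (x : X) : ℂ :=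
  (L.P x * ((Matrix.of fun i j => del0 (fun y => L.P y i j) x 0) *
      (Matrix.of fun i j => del0 (fun y => L.P y i j) x 1) -
    (Matrix.of fun i j => del0 (fun y => L.P y i j) x 1) *
      (Matrix.of fun i j => del0 (fun y => L.P y i j) x 0))).trace

/-- the `(1,1)`-part: coefficient of `dz_k∧dz̄_l` -/
def F11 (L : LB X ι) (x : X) : Matrix (Fin 2) (Fin 2) ℂ :=
  Matrix.of fun k l =>
    (L.P x * ((Matrix.of fun i j => del0 (fun y => L.P y i j) x k) *
        (Matrix.of fun i j => dbar0 0 (fun y => L.P y i j) x l) -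
      (Matrix.of fun i j => dbar0 0 (fun y => L.P y i j) x l) *
        (Matrix.of fun i j => del0 (fun y => L.P y i j) x k))).trace

/-- the curvature form `tr (P dP∧dP)` of the unitary connection `P d`; `c_1 = [i/2π · curv]` -/
def curv (L : LB X ι) : TwoF X := ⟨L.F20, L.F11, L.F02⟩

/-- `a` is a holomorphic structure on `L`: `∂̄_L s = P ∂̄ s + a s`, integrable -/
structure IsHol (L : LB X ι) (a : X → Fin 2 → ℂ) : Prop where
  smooth : Reg1 ∞ 0 a
  integrable : ∀ x, dbar1 0 a x + L.F02 x = 0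

/-- `∂̄` on `K^κ ⊗ L`-valued functions, for the holomorphic structure `a` -/
def db0 (L : LB X ι) (a : X → Fin 2 → ℂ) (κ : ℤ) (s : X → EuclideanSpace ℂ ι) (x : X) (i : Fin 2) :
    EuclideanSpace ℂ ι :=
  act (L.P x) (dbar0 κ s x i) + a x i • s x

/-- `∂̄` on `K^κ ⊗ L`-valued `(0,1)`-forms -/
def db1 (L : LB X ι) (a : X → Fin 2 → ℂ) (κ : ℤ) (w : X → Fin 2 → EuclideanSpace ℂ ι) (x : X) :
    EuclideanSpace ℂ ι :=
  act (L.P x) (dbar1 κ w x) + (a x 0 • w x 1 - a x 1 • w x 0)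

/-- the trivial bundle, spanned by the basis vector `i₀` -/
def triv (i₀ : ι) : LB X ι where
  P _ := Matrix.single i₀ i₀ 1
  smooth i j := by
    intro e _
    have : loc0 0 e (fun _ : X => (Matrix.single i₀ i₀ (1 : ℂ)) i j) =
        fun _ => (Matrix.single i₀ i₀ (1 : ℂ)) i j := by
      funext z
      simp [loc0]
    rw [this]
    exact contDiffOn_const
  herm _ := by simp
  idem _ := by simp
  tr _ := by simp

theorem loc0_zero {V : Type*} [NormedAddCommGroup V] [NormedSpace ℂ V] (e : Ch X) (s : X → V) :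
    loc0 0 e s = s ∘ e.symm := by
  funext z
  simp [loc0]

theorem reg0_zero_mul {n : WithTop ℕ∞} {f g : X → ℂ} (hf : Reg0 n 0 f) (hg : Reg0 n 0 g) :
    Reg0 n 0 fun x => f x * g x := by
  intro e he
  have h1 := hf e he
  have h2 := hg e he
  rw [loc0_zero] at h1 h2 ⊢
  exact h1.mul h2

/-- the tensor product -/
def tensor (L : LB X ι) (L' : LB X ι') : LB X (ι × ι') where
  P x := Matrix.kroneckerMap (· * ·) (L.P x) (L'.P x)
  smooth i j := reg0_zero_mul (L.smooth i.1 j.1) (L'.smooth i.2 j.2)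
  herm x := by
    ext i j
    have h1 := congrFun (congrFun (L.herm x) i.1) j.1
    have h2 := congrFun (congrFun (L'.herm x) i.2) j.2
    simp only [Matrix.conjTranspose_apply, Matrix.kroneckerMap_apply, star_mul'] at *
    rw [h1, h2]
  idem x := by
    have := Matrix.mul_kronecker_mul (L.P x) (L.P x) (L'.P x) (L'.P x)
    rw [L.idem, L'.idem] at this
    exact this.symm
  tr x := by
    have := Matrix.trace_kronecker (L.P x) (L'.P x)
    rw [L.tr, L'.tr, one_mul] at this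
    exact this

/-- the dual bundle -/
def dual (L : LB X ι) : LB X ι where
  P x := (L.P x)ᵀ
  smooth i j := L.smooth j i
  herm x := by
    ext i j
    have h := congrFun (congrFun (L.herm x) j) i
    simp only [Matrix.conjTranspose_apply, Matrix.transpose_apply] at *
    exact h
  idem x := by rw [← Matrix.transpose_mul, L.idem]
  tr x := by rw [Matrix.trace_transpose, L.tr]

/-- the holomorphic structure of the tensor product is `a + a'`, of the dual `-a`; an isomorphism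
`(L, a) → (L', a')` is a nowhere zero holomorphic section of `(L' ⊗ L^*, a' - a)` -/
def IsSmoothTrivial (L : LB X ι) : Prop :=
  ∃ s : X → EuclideanSpace ℂ ι, Reg0 ∞ 0 s ∧ L.Sec s ∧ ∀ x, s x ≠ 0

/-- curvature of the Chern connection of `(L, a)` with the metric induced from `ℂ^ι`:
`curv L + d(a - ā)`; it is of type `(1,1)` if `a` is integrable -/
def chern (L : LB X ι) (a : X → Fin 2 → ℂ) : TwoF X :=
  ⟨fun x => L.F20 x + del10 (fun y i => -conj (a y i)) x,
    fun x => L.F11 x + (del1 a x + dbar10 (fun y i => -conj (a y i)) x),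
    fun x => L.F02 x + dbar1 0 a x⟩

end LB

end Vale.Agent.P267.FL
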