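import Vale.Agent.P267.H399.Surg
import Vale.Agent.P267.H334.Cont
import Vale.Agent.P267.H877.Norms

/-! P267 / H399: (F1) of package GX-FACT: a holomorphic line bundle on the infinite cyclic covering
with a holomorphic section without zeros near the ends is isomorphic to a bundle which is exactly
trivial near the ends. -/

set_option linter.unusedVariables false
set_option linter.unusedSectionVars false
set_option linter.unusedSimpArgs false

open scoped Manifold ContDiff ComplexConjugate Matrix ComplexOrder Topology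
open MeasureTheory Set Filter

noncomputable section

namespace Vale.Agent.P267.H399

open FL XT

variable {M : Type} [TopologicalSpace M] [ChartedSpace C2 M] [IsManifold 𝓘(ℂ, C2) ω M]
variable {ι : Type} [Fintype ι] [DecidableEq ι]

theorem continuous_f (D : XTData M) : Continuous D.f := by
  have h : Continuous fun x => (D.f x : ℂ) := Reg0.continuous D.f_smooth
  have h2 : D.f = fun x => (D.f x : ℂ).re := by
    funext x
    rw [Complex.ofReal_re]
  rw [h2]
  exact Complex.continuous_re.comp h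

/-- smooth functions of `f` -/
theorem reg0_comp_f (D : XTData M) {θ : ℝ → ℝ} (hθ : ContDiff ℝ ∞ θ) :
    Reg0 ∞ 0 fun x => (θ (D.f x) : ℂ) := by
  intro e he
  have h1 : loc0 0 e (fun x => (θ (D.f x) : ℂ)) =
      fun z => Complex.ofRealCLM (θ (Complex.reCLM (loc0 0 e (fun x => (D.f x : ℂ)) z))) := by
    rw [LB.loc0_zero, LB.loc0_zero]
    funext z
    simp
  rw [h1]
  exact Complex.ofRealCLM.contDiff.comp_contDiffOn
    (hθ.comp_contDiffOn (Complex.reCLM.contDiff.comp_contDiffOn (D.f_smooth e he)))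

/-- a cut-off function: `0` for `|f| ≤ R`, `1` for `|f| ≥ R + 1` -/
def cutR (R : ℝ) (t : ℝ) : ℝ := Real.smoothTransition ((t ^ 2 - R ^ 2) / (2 * R + 1))

theorem cutR_smooth (R : ℝ) : ContDiff ℝ ∞ (cutR R) := by
  apply Real.smoothTransition.contDiff.comp
  fun_prop

theorem cutR_zero {R : ℝ} (hR : 0 ≤ R) {t : ℝ} (ht : |t| ≤ R) : cutR R t = 0 := by
  apply Real.smoothTransition.zero_of_nonpos
  apply div_nonpos_of_nonpos_of_nonneg
  · have := sq_le_sq' (by linarith [neg_le_of_abs_le ht]) (le_of_abs_le ht)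
    linarith
  · linarith

theorem cutR_one {R : ℝ} (hR : 0 ≤ R) {t : ℝ} (ht : R + 1 ≤ |t|) : cutR R t = 1 := by
  apply Real.smoothTransition.one_of_one_le
  rw [le_div_iff₀ (by linarith), one_mul]
  have h1 : (R + 1) ^ 2 ≤ |t| ^ 2 := pow_le_pow_left₀ (by linarith) ht 2
  rw [sq_abs] at h1
  nlinarith

/-- the cut-off function on `M` -/
def chiR (D : XTData M) (R : ℝ) (x : M) : ℂ := (cutR R (D.f x) : ℂ)

theorem chiR_reg (D : XTData M) (R : ℝ) : Reg0 ∞ 0 (chiR D R) := reg0_comp_f D (cutR_smooth R)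

theorem chiR_zero (D : XTData M) {R : ℝ} (hR : 0 ≤ R) {x : M} (hx : |D.f x| ≤ R) :
    chiR D R x = 0 := by
  rw [chiR, cutR_zero hR hx, Complex.ofReal_zero]

theorem chiR_one (D : XTData M) {R : ℝ} (hR : 0 ≤ R) {x : M} (hx : R + 1 ≤ |D.f x|) :
    chiR D R x = 1 := by
  rw [chiR, cutR_one hR hx, Complex.ofReal_one]

theorem chiR_zero_nhds (D : XTData M) {R : ℝ} (hR : 0 ≤ R) {x : M} (hx : |D.f x| < R) :
    ∀ᶠ y in 𝓝 x, chiR D R y = 0 := by
  have h1 : Continuous fun y => |D.f y| := (continuous_f D).abs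
  filter_upwards [h1.continuousAt.eventually_lt continuousAt_const hx] with y hy
  exact chiR_zero D hR hy.le

theorem chiR_one_nhds (D : XTData M) {R : ℝ} (hR : 0 ≤ R) {x : M} (hx : R + 1 < |D.f x|) :
    ∀ᶠ y in 𝓝 x, chiR D R y = 1 := by
  have h1 : Continuous fun y => |D.f y| := (continuous_f D).abs
  filter_upwards [continuousAt_const.eventually_lt h1.continuousAt hx] with y hy
  exact chiR_one D hR hy.le

/-- a function which is `0` for `|f| > R` and continuous is `≤ C e^{-N|f|}` -/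
theorem decay_of_zero (D : XTData M) {n : M → ℝ} (hn : Continuous n) {R : ℝ}
    (h0 : ∀ x, R < |D.f x| → n x = 0) (N : ℝ) :
    ∃ C, ∀ x, n x ≤ C * Real.exp (-(N * |D.f x|)) := by
  have hc : IsCompact (D.f ⁻¹' Icc (-|R|) |R|) := D.f_proper _ _
  obtain ⟨B, hB⟩ := (hc.image hn).bddAbove
  refine ⟨max B 0 * Real.exp (|N| * |R|), fun x => ?_⟩
  by_cases hx : R < |D.f x|
  · rw [h0 x hx]
    positivity
  · have h1 : |D.f x| ≤ |R| := le_trans (not_lt.1 hx) (le_abs_self R)
    have h2 : n x ≤ B := hB ⟨x, ⟨neg_le_of_abs_le h1, le_of_abs_le h1⟩, rfl⟩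
    have h3 : N * |D.f x| ≤ |N| * |R| :=
      (mul_le_mul_of_nonneg_right (le_abs_self N) (abs_nonneg _)).trans
        (mul_le_mul_of_nonneg_left h1 (abs_nonneg N))
    have h4 : (1 : ℝ) ≤ Real.exp (|N| * |R|) * Real.exp (-(N * |D.f x|)) := by
      rw [← Real.exp_add]
      apply Real.one_le_exp
      linarith
    calc n x ≤ max B 0 := h2.trans (le_max_left _ _)
      _ = max B 0 * 1 := (mul_one _).symm
      _ ≤ max B 0 * (Real.exp (|N| * |R|) * Real.exp (-(N * |D.f x|))) :=
        mul_le_mul_of_nonneg_left h4 (le_max_right _ _)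
      _ = _ := by ring

/-- a holomorphic structure which vanishes near the ends satisfies all decay conditions -/
theorem endTriv_of_zero (D : XTData M) {L : LB M ι} {a : M → Fin 2 → ℂ} (ha : L.IsHol a) {i₀ : ι}
    {R : ℝ} (hP : ∀ x, R ≤ |D.f x| → L.P x = Matrix.single i₀ i₀ 1) {R' : ℝ}
    (h0 : ∀ x, R' < |D.f x| → a x = 0) (N : ℝ) : D.EndTriv L i₀ a R N where
  hol := ha
  ends := hP
  decay := by
    refine decay_of_zero D (XT.continuous_n1 D.herm ha.smooth) (R := R') (fun x hx => ?_) N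
    have h1 : a x = 0 := h0 x hx
    have h2 : nsq1 D.h a x = 0 := by
      rw [nsq1, h1]
      simp
    rw [n1, h2, Real.sqrt_zero, zero_mul]
  decay' := by
    refine decay_of_zero D ((H334.continuous_trh D.herm (H469.reg_del1 ha.smooth)).norm)
      (R := R') (fun x hx => ?_) N
    have h1 : Continuous fun y => |D.f y| := (continuous_f D).abs
    have h2 : (a : M → Fin 2 → ℂ) =ᶠ[𝓝 x] fun _ => 0 := by
      filter_upwards [continuousAt_const.eventually_lt h1.continuousAt hx] with y hy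
      exact h0 y hy
    have h3 : del1 a x = 0 := by
      have h4 : ∀ j, (fun z => loc1 0 (chartAt C2 x) a z j) =ᶠ[𝓝 (chartAt C2 x x)]
          fun _ => 0 := by
        intro j
        have h5 := loc1_congr (κ := 0) (mem_chart_source C2 x) h2
        have h6 : loc1 0 (chartAt C2 x) (fun _ : M => (0 : Fin 2 → ℂ)) = fun _ => 0 :=
          loc1_zero_fun
        rw [h6] at h5
        filter_upwards [h5] with z hz
        rw [hz]
        rfl
      ext i j
      rw [del1, Matrix.of_apply, dz_congr (h4 j)]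
      simp [dz]
    rw [trh, h3]
    simp

/-- (F1) EXACT END -/
theorem exactEnd (D : XTData M) {L : LB M ι} {a : M → Fin 2 → ℂ} (ha : L.IsHol a)
    {s : M → EuclideanSpace ℂ ι} (hs : Reg0 ∞ 0 s) (hsec : L.Sec s)
    (h0 : ∀ x i, L.db0 a 0 s x i = 0) {R : ℝ} (hR : 0 ≤ R) (hne : ∀ x, R ≤ |D.f x| → s x ≠ 0) :
    ∃ (L' : LB M (Option ι)) (a' : M → Fin 2 → ℂ) (T : H662.LIso L a L' a' 0),
      L'.IsHol a' ∧ (∀ R', R + 1 ≤ R' → ∀ N, D.EndTriv L' none a' R' N) ∧
      (∀ x, R + 1 ≤ |D.f x| → L'.P x = Matrix.single none none 1) ∧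
      (∀ x, R + 1 < |D.f x| → a' x = 0) ∧
      (∀ x, R + 1 ≤ |D.f x| → T.t x (s x) = EuclideanSpace.single none 1) ∧
      (∀ x v, LB.act (L.P x) v = v → (T.t x v = 0 ↔ v = 0)) ∧
      (∀ x v, |D.f x| ≤ R → LB.act (L.P x) v = v → ‖T.t x v‖ = ‖v‖) ∧
      (∀ x, |D.f x| ≤ R → (∀ i j, L'.P x (some i) (some j) = L.P x i j) ∧
        ∀ p, L'.P x none p = 0 ∧ L'.P x p none = 0) ∧
      (∀ x, |D.f x| < R → a' x = a x) := by
  have hd : LB.SurgData L (chiR D R) s := ⟨hs, hsec, chiR_reg D R, fun x => by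
    rcases lt_or_ge |D.f x| R with hx | hx
    · exact Or.inr (chiR_zero_nhds D hR hx)
    · exact Or.inl (hne x hx)⟩
  have hP : ∀ x, R + 1 ≤ |D.f x| → (LB.surg hd).P x = Matrix.single none none 1 :=
    fun x hx => LB.surg_P_one hd (chiR_one D hR hx)
  have hA : ∀ x, R + 1 < |D.f x| → LB.surgA L (chiR D R) s a x = 0 := fun x hx => by
    funext i
    exact LB.surgA_one hd (h0 x) (chiR_one_nhds D hR hx) i
  refine ⟨LB.surg hd, LB.surgA L (chiR D R) s a, LB.surgIso hd a, ha.surg hd, ?_, hP, hA, ?_, ?_,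
    ?_, ?_, ?_⟩
  · intro R' hR' N
    exact endTriv_of_zero D (ha.surg hd) (fun x hx => hP x (hR'.trans hx)) hA N
  · intro x hx
    exact LB.surgT_s_one (hsec x) (hne x (by linarith)) (chiR_one D hR hx)
  · intro x v hv
    exact LB.surg_eq_zero_iff hd a hv
  · intro x v hx hv
    exact LB.norm_surgT_zero (chiR_zero D hR hx) hv
  · intro x hx
    exact ⟨LB.surg_P_zero hd (chiR_zero D hR hx), LB.surg_P_zero_none hd (chiR_zero D hR hx)⟩
  · intro x hx
    funext i
    exact LB.surgA_zero hd a (chiR_zero_nhds D hR hx) i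

end Vale.Agent.P267.H399
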