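import Vale.Agent.P267.H399.LBTensor
import Vale.Agent.P267.H662.LIso

/-! P267 / H399: transport of a holomorphic line bundle `(L, a)` along a smooth family of linear
maps `T x : E → E'` with `T P = T`, `T ≠ 0`: the image bundle `L.push T`, its connection form
`L.pushA a T`, the isomorphism `pushIso`, integrability. -/

set_option linter.unusedVariables false
set_option linter.unusedSectionVars false
set_option linter.unusedSimpArgs false

open scoped Manifold ContDiff ComplexConjugate Matrix ComplexOrder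
open MeasureTheory Set Filter Topology

noncomputable section

namespace Vale.Agent.P267.FL.LB

variable {X : Type*} [TopologicalSpace X] [ChartedSpace C2 X]
variable {ι : Type} [Fintype ι] [DecidableEq ι] {ι' : Type} [Fintype ι'] [DecidableEq ι']

/-! ### rectangular matrices as continuous linear maps -/

/-- the continuous linear map of a rectangular matrix -/
def mL (T : Matrix ι' ι ℂ) : EuclideanSpace ℂ ι →L[ℂ] EuclideanSpace ℂ ι' :=
  ∑ i, ∑ j, T i j • (ev j).smulRight (EuclideanSpace.single i (1 : ℂ))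

theorem mL_apply (T : Matrix ι' ι ℂ) (v : EuclideanSpace ℂ ι) (i : ι') :
    mL T v i = ∑ j, T i j * v j := by
  have h1 : mL T v = ∑ i, ∑ j, T i j • (v j • EuclideanSpace.single i (1 : ℂ)) := by
    rw [mL]
    simp only [_root_.sum_apply, _root_.smul_apply,
      ContinuousLinearMap.smulRight_apply, ev_apply]
  rw [h1]
  simp only [smul_eq_mul, WithLp.ofLp_sum, Finset.sum_apply, WithLp.ofLp_smul,
    Pi.smul_apply, PiLp.single_apply, mul_ite, mul_one, mul_zero]
  rw [Finset.sum_comm]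
  simp

theorem mL_mul {ι'' : Type} [Fintype ι''] [DecidableEq ι''] (S : Matrix ι'' ι' ℂ)
    (T : Matrix ι' ι ℂ) (v : EuclideanSpace ℂ ι) : mL (S * T) v = mL S (mL T v) := by
  ext i
  simp only [mL_apply, Matrix.mul_apply, Finset.sum_mul, Finset.mul_sum]
  rw [Finset.sum_comm]
  exact Finset.sum_congr rfl fun j _ => Finset.sum_congr rfl fun k _ => by ring

theorem mL_eq_act (M : Matrix ι ι ℂ) (v : EuclideanSpace ℂ ι) : mL M v = act M v := by
  ext i
  rw [mL_apply, act_apply]

theorem mL_smul (c : ℂ) (T : Matrix ι' ι ℂ) (v : EuclideanSpace ℂ ι) :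
    mL (c • T) v = c • mL T v := by
  ext i
  simp only [mL_apply, Matrix.smul_apply, PiLp.smul_apply, smul_eq_mul, Finset.mul_sum, mul_assoc]

section

variable [IsManifold 𝓘(ℂ, C2) ω X]

theorem at0_mL {n : WithTop ℕ∞} {κ : ℤ} {T : X → Matrix ι' ι ℂ} {x : X}
    (hT : ∀ i j, At0 n κ (fun y => T y i j) x) : At0 n κ (fun y => mL (T y)) x := by
  refine At0.sum fun i _ => At0.sum fun j _ => ?_
  exact (hT i j).clm (ContinuousLinearMap.smulRight (ContinuousLinearMap.id ℂ ℂ)
    ((ev j).smulRight (EuclideanSpace.single i (1 : ℂ)) :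
      EuclideanSpace ℂ ι →L[ℂ] EuclideanSpace ℂ ι'))

theorem dbar0_mL {κ : ℤ} {T : X → Matrix ι' ι ℂ} {x : X}
    (hT : ∀ i j, At0 1 κ (fun y => T y i j) x) (k : Fin 2) :
    dbar0 κ (fun y => mL (T y)) x k =
      mL (Matrix.of fun i j => dbar0 κ (fun y => T y i j) x k) := by
  have hc : ∀ i j, At0 1 κ (fun y => T y i j • ((ev j).smulRight
      (EuclideanSpace.single i (1 : ℂ)) : EuclideanSpace ℂ ι →L[ℂ] EuclideanSpace ℂ ι')) x :=
    fun i j => (hT i j).clm (ContinuousLinearMap.smulRight (ContinuousLinearMap.id ℂ ℂ)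
      ((ev j).smulRight (EuclideanSpace.single i (1 : ℂ)) :
        EuclideanSpace ℂ ι →L[ℂ] EuclideanSpace ℂ ι'))
  have h1 : (fun y => mL (T y)) = fun y => ∑ i, ∑ j, T y i j • ((ev j).smulRight
      (EuclideanSpace.single i (1 : ℂ)) : EuclideanSpace ℂ ι →L[ℂ] EuclideanSpace ℂ ι') := rfl
  rw [h1, dbar0_sum fun i _ => At0.sum fun j _ => hc i j, Finset.sum_apply, mL]
  refine Finset.sum_congr rfl fun i _ => ?_
  rw [dbar0_sum fun j _ => hc i j, Finset.sum_apply]
  refine Finset.sum_congr rfl fun j _ => ?_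
  exact dbar0_clm (ContinuousLinearMap.smulRight (ContinuousLinearMap.id ℂ ℂ)
      ((ev j).smulRight (EuclideanSpace.single i (1 : ℂ)) :
        EuclideanSpace ℂ ι →L[ℂ] EuclideanSpace ℂ ι')) (hT i j) k

theorem At0.conj {n : WithTop ℕ∞} {f : X → ℂ} {x : X} (h : At0 n 0 f x) :
    At0 n 0 (fun y => conj (f y)) x := by
  have h1 : loc0 0 (chartAt C2 x) (fun y => conj (f y)) =
      fun z => Complex.conjCLE (loc0 0 (chartAt C2 x) f z) := by
    rw [loc0_zero, loc0_zero]
    rfl
  rw [At0, h1]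
  exact Complex.conjCLE.contDiff.contDiffAt.comp _ h

end

/-! ### algebra -/

section alg

variable (L : LB X ι) {x : X} {T : Matrix ι' ι ℂ}

/-- squared Hilbert-Schmidt norm -/
def hs (T : Matrix ι' ι ℂ) : ℂ := ∑ i, ∑ j, conj (T i j) * T i j

theorem hs_eq (T : Matrix ι' ι ℂ) : hs T = (Tᴴ * T).trace := by
  simp only [hs, Matrix.trace, Matrix.diag_apply, Matrix.mul_apply, Matrix.conjTranspose_apply]
  rw [Finset.sum_comm]
  rfl

theorem conj_hs (T : Matrix ι' ι ℂ) : conj (hs T) = hs T := by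
  simp only [hs, map_sum, map_mul, Complex.conj_conj]
  exact Finset.sum_congr rfl fun i _ => Finset.sum_congr rfl fun j _ => by ring

theorem hs_ne_zero {T : Matrix ι' ι ℂ} (hT : T ≠ 0) : hs T ≠ 0 := by
  intro h0
  apply hT
  have h1 : hs T = ((∑ i, ∑ j, ‖T i j‖ ^ 2 : ℝ) : ℂ) := by
    rw [hs]
    push_cast
    refine Finset.sum_congr rfl fun i _ => Finset.sum_congr rfl fun j _ => ?_
    rw [mul_comm, Complex.mul_conj, Complex.normSq_eq_norm_sq]
    push_cast
    rfl
  rw [h1] at h0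
  have h2 : (∑ i, ∑ j, ‖T i j‖ ^ 2 : ℝ) = 0 := by exact_mod_cast h0
  have h3 := (Finset.sum_eq_zero_iff_of_nonneg fun i _ =>
    Finset.sum_nonneg fun j _ => sq_nonneg ‖T i j‖).1 h2
  ext i j
  have h4 := (Finset.sum_eq_zero_iff_of_nonneg fun j _ => sq_nonneg ‖T i j‖).1
    (h3 i (Finset.mem_univ i)) j (Finset.mem_univ j)
  simpa using h4

include L in
theorem P_conjT (hP : T * L.P x = T) : L.P x * Tᴴ = Tᴴ := by
  conv_rhs => rw [← hP]
  rw [Matrix.conjTranspose_mul, L.herm]

/-- `Tᴴ S P = tr(Tᴴ S) P` -/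
theorem conjT_mul_P (hP : T * L.P x = T) (S : Matrix ι' ι ℂ) :
    Tᴴ * S * L.P x = (Tᴴ * S).trace • L.P x := by
  have h1 := L.P_mul_mul_P (x := x) (Tᴴ * S)
  rw [← Matrix.mul_assoc, L.P_conjT hP] at h1
  exact h1

theorem conjT_mul_self (hP : T * L.P x = T) : Tᴴ * T = hs T • L.P x := by
  have h1 := L.conjT_mul_P hP T
  rw [Matrix.mul_assoc, hP] at h1
  rw [h1, hs_eq]

end alg

/-! ### the image bundle -/

section push

variable [IsManifold 𝓘(ℂ, C2) ω X]
variable (L : LB X ι) (T : X → Matrix ι' ι ℂ)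

/-- data for the transport: a smooth family of linear maps, nonzero on the line bundle -/
structure PushData : Prop where
  smooth : ∀ i j, Reg0 ∞ 0 fun x => T x i j
  mulP : ∀ x, T x * L.P x = T x
  ne : ∀ x, T x ≠ 0

variable {L T}

theorem PushData.at (h : L.PushData T) {n : WithTop ℕ∞} (hn : n ≤ ∞) (x : X) (i : ι') (j : ι) :
    At0 n 0 (fun y => T y i j) x := ((h.smooth i j).at x).of_le hn

theorem PushData.at_hs (h : L.PushData T) {n : WithTop ℕ∞} (hn : n ≤ ∞) (x : X) :
    At0 n 0 (fun y => hs (T y)) x :=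
  At0.sum fun i _ => At0.sum fun j _ => (At0.conj (h.at hn x i j)).mul (h.at hn x i j)

theorem PushData.at_inv (h : L.PushData T) {n : WithTop ℕ∞} (hn : n ≤ ∞) (x : X) :
    At0 n 0 (fun y => (hs (T y))⁻¹) x := (h.at_hs hn x).inv0 (hs_ne_zero (h.ne x))

/-- the image bundle -/
def push (h : L.PushData T) : LB X ι' where
  P x := (hs (T x))⁻¹ • (T x * (T x)ᴴ)
  smooth i j := reg0_iff_at.2 fun x => by
    have h1 : (fun y => ((hs (T y))⁻¹ • (T y * (T y)ᴴ)) i j) =
        fun y => (hs (T y))⁻¹ * ∑ l, T y i l * conj (T y j l) := by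
      funext y
      simp only [Matrix.smul_apply, smul_eq_mul, Matrix.mul_apply, Matrix.conjTranspose_apply]
      rfl
    rw [h1]
    exact (h.at_inv le_rfl x).mul (At0.sum fun l _ =>
      (h.at le_rfl x i l).mul (At0.conj (h.at le_rfl x j l)))
  herm x := by
    rw [Matrix.conjTranspose_smul, Matrix.conjTranspose_mul, Matrix.conjTranspose_conjTranspose]
    congr 1
    change conj ((hs (T x))⁻¹) = _
    rw [map_inv₀, conj_hs]
  idem x := by
    have h1 : T x * (T x)ᴴ * (T x * (T x)ᴴ) = hs (T x) • (T x * (T x)ᴴ) := by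
      rw [Matrix.mul_assoc, ← Matrix.mul_assoc (T x)ᴴ, L.conjT_mul_self (h.mulP x),
        Matrix.smul_mul, Matrix.mul_smul, ← Matrix.mul_assoc, h.mulP x]
    rw [Matrix.smul_mul, Matrix.mul_smul, h1, smul_smul, smul_smul, mul_assoc, inv_mul_cancel₀
      (hs_ne_zero (h.ne x)), mul_one]
  tr x := by
    rw [Matrix.trace_smul, Matrix.trace_mul_comm, ← hs_eq, smul_eq_mul, inv_mul_cancel₀
      (hs_ne_zero (h.ne x))]

theorem push_P (h : L.PushData T) (x : X) : (push h).P x = (hs (T x))⁻¹ • (T x * (T x)ᴴ) := rfl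

theorem push_mul (h : L.PushData T) (x : X) : (push h).P x * T x = T x := by
  rw [push_P, Matrix.smul_mul, Matrix.mul_assoc, L.conjT_mul_self (h.mulP x), Matrix.mul_smul,
    h.mulP x, smul_smul, inv_mul_cancel₀ (hs_ne_zero (h.ne x)), one_smul]

/-- `∂̄`-derivatives of the entries of `T` -/
def dbT (T : X → Matrix ι' ι ℂ) (x : X) (k : Fin 2) : Matrix ι' ι ℂ :=
  Matrix.of fun i j => dbar0 0 (fun y => T y i j) x k

/-- the coefficient `tr (Tᴴ ∂̄T) / |T|²` -/
def pushB (T : X → Matrix ι' ι ℂ) (x : X) (k : Fin 2) : ℂ :=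
  (hs (T x))⁻¹ * ((T x)ᴴ * dbT T x k).trace

/-- the transported connection form -/
def pushA (a : X → Fin 2 → ℂ) (T : X → Matrix ι' ι ℂ) (x : X) (k : Fin 2) : ℂ :=
  a x k - pushB T x k

theorem pushB_eq (T : X → Matrix ι' ι ℂ) (x : X) (k : Fin 2) :
    pushB T x k = (hs (T x))⁻¹ * ∑ j, ∑ i, conj (T x i j) * dbar0 0 (fun y => T y i j) x k := by
  simp only [pushB, Matrix.trace, Matrix.diag_apply, Matrix.mul_apply,
    Matrix.conjTranspose_apply, dbT, Matrix.of_apply]
  rfl

theorem PushData.at1_B (h : L.PushData T) (x : X) : At1 ∞ 0 (pushB T) x := by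
  have h1 : pushB T = fun y k => (hs (T y))⁻¹ •
      ∑ j, ∑ i, conj (T y i j) • dbar0 0 (fun y => T y i j) y k := by
    funext y k
    rw [pushB_eq]
    rfl
  rw [h1]
  refine At1.smul (h.at_inv le_rfl x) ?_
  have h2 : (fun (y : X) (k : Fin 2) => ∑ j, ∑ i, conj (T y i j) • dbar0 0 (fun y => T y i j) y k)
      = fun y => ∑ j, (∑ i, fun k => conj (T y i j) • dbar0 0 (fun y => T y i j) y k) := by
    funext y k
    simp only [Finset.sum_apply]
  rw [h2]
  exact At1.sum fun j _ => At1.sum fun i _ => At1.smul (At0.conj (h.at le_rfl x i j))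
    ((h.at le_rfl x i j).dbar (by simp))

theorem PushData.reg1_A (h : L.PushData T) {a : X → Fin 2 → ℂ} (ha : Reg1 ∞ 0 a) :
    Reg1 ∞ 0 (pushA a T) :=
  reg1_iff_at.2 fun x => (ha.at x).sub (h.at1_B x)

/-- `P' ∂̄T P = (∂̄-coefficient) T` -/
theorem push_dbT (h : L.PushData T) (x : X) (k : Fin 2) :
    (push h).P x * dbT T x k * L.P x = pushB T x k • T x := by
  rw [push_P, Matrix.smul_mul, Matrix.smul_mul, Matrix.mul_assoc (T x), Matrix.mul_assoc (T x),
    L.conjT_mul_P (h.mulP x), Matrix.mul_smul, h.mulP x, smul_smul]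
  rfl

/-- the isomorphism `(L, a) → (push, pushA)` -/
def pushIso (h : L.PushData T) (a : X → Fin 2 → ℂ) :
    H662.LIso L a (push h) (pushA a T) 0 where
  t x := mL (T x)
  r x := mL ((hs (T x))⁻¹ • (T x)ᴴ)
  t_reg := reg0_iff_at.2 fun x => at0_mL fun i j => h.at le_rfl x i j
  r_reg := by
    rw [neg_zero]
    refine reg0_iff_at.2 fun x => at0_mL fun i j => ?_
    have h1 : (fun y => ((hs (T y))⁻¹ • (T y)ᴴ) i j) = fun y => (hs (T y))⁻¹ * conj (T y j i) := by
      funext y
      rfl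
    rw [h1]
    exact (h.at_inv le_rfl x).mul (At0.conj (h.at le_rfl x j i))
  t_P x v := by
    rw [← mL_eq_act, ← mL_mul, push_mul, ← mL_eq_act, ← mL_mul, h.mulP]
  r_P x u := by
    rw [← mL_eq_act, ← mL_mul, ← mL_eq_act, ← mL_mul, Matrix.mul_smul, L.P_conjT (h.mulP x)]
    congr 2
    rw [push_P, Matrix.smul_mul, Matrix.mul_smul, ← Matrix.mul_assoc, L.conjT_mul_self (h.mulP x),
      Matrix.smul_mul, L.P_conjT (h.mulP x), smul_smul (hs (T x))⁻¹ (hs (T x)), inv_mul_cancel₀
      (hs_ne_zero (h.ne x)), one_smul]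
  r_t x v hv := by
    rw [← mL_mul, Matrix.smul_mul, L.conjT_mul_self (h.mulP x), smul_smul, inv_mul_cancel₀
      (hs_ne_zero (h.ne x)), one_smul, mL_eq_act, hv]
  t_r x u hu := by
    rw [← mL_mul, Matrix.mul_smul, ← push_P h, mL_eq_act, hu]
  dbar x i v hv := by
    rw [dbar0_mL fun p q => h.at (by simp) x p q]
    have h1 : act ((push h).P x) ((mL (dbT T x i)) v) = pushB T x i • mL (T x) v := by
      conv_lhs => rw [← hv]
      rw [← mL_eq_act, ← mL_mul, ← mL_eq_act, ← mL_mul, push_dbT, mL_smul]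
    have h2 : act ((push h).P x) ((mL (Matrix.of fun p q =>
        dbar0 0 (fun y => T y p q) x i)) v) = pushB T x i • mL (T x) v := h1
    rw [h2, pushA]
    module

theorem pushIso_t (h : L.PushData T) (a : X → Fin 2 → ℂ) (x : X) :
    (pushIso h a).t x = mL (T x) := rfl

/-- the transported structure is holomorphic -/
theorem IsHol.push (h : L.PushData T) {a : X → Fin 2 → ℂ} (ha : L.IsHol a) :
    (push h).IsHol (pushA a T) where
  smooth := h.reg1_A ha.smooth
  integrable x := by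
    obtain ⟨s, hs1, hs2, hs3⟩ := L.exists_section x
    have hne : s x ≠ 0 := hs3.self_of_nhds
    set I := pushIso h a with hI
    have e1 : (LB.push h).db1 (pushA a T) (0 + 0) (fun y i => I.t y (L.db0 a 0 s y i)) x =
        I.t x (L.db1 a 0 (L.db0 a 0 s) x) :=
      I.db1_t ((reg1_db0 ha.smooth hs1).at x |>.of_le (by simp)) (fun i => L.sec1_db0 (hs2 x) i)
    rw [db1_db0_eq_zero ha (Eventually.of_forall hs2) ((hs1.at x).of_le (by norm_cast)),
      map_zero] at e1
    have e2 : (fun y i => I.t y (L.db0 a 0 s y i)) =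
        (LB.push h).db0 (pushA a T) (0 + 0) (fun y => I.t y (s y)) := by
      funext y i
      exact (I.db0_t ((hs1.at y).of_le (by simp)) (hs2 y) i).symm
    rw [e2] at e1
    have hts : Reg0 ∞ (0 + 0) fun y => I.t y (s y) := H662.LIso.reg0 I.t_reg hs1
    have e3 := db1_db0 (L := LB.push h) (a := pushA a T) (κ := 0 + 0)
      (s := fun y => I.t y (s y)) (x := x) (((h.reg1_A ha.smooth).at x).of_le (by simp))
      (Eventually.of_forall fun y => by rw [I.t_P, hs2 y]) ((hts.at x).of_le (by norm_cast))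
    rw [e1] at e3
    have hne' : I.t x (s x) ≠ 0 := by
      intro h0
      apply hne
      have := I.r_t x (s x) (hs2 x)
      rw [h0, map_zero] at this
      exact this.symm
    exact (smul_eq_zero.1 e3.symm).resolve_right hne'

end push

end Vale.Agent.P267.FL.LB
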