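import Vale.Agent.P267.H399.Push
import Vale.Agent.P267.H877.Setup

/-! P267 / H399: SURGERY. A holomorphic line bundle with a holomorphic section `s` without zeros
near the two ends is isomorphic to a bundle which is EXACTLY the trivial bundle near the ends
(`P = E_{none,none}`, `a = 0`, `s = e_none`), and is unchanged where the cut-off vanishes. -/

set_option linter.unusedVariables false
set_option linter.unusedSectionVars false
set_option linter.unusedSimpArgs false

open scoped Manifold ContDiff ComplexConjugate Matrix ComplexOrder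
open MeasureTheory Set Filter Topology

noncomputable section

namespace Vale.Agent.P267.FL.LB

variable {X : Type*} [TopologicalSpace X] [ChartedSpace C2 X]
variable {ι : Type} [Fintype ι] [DecidableEq ι]

/-- `|s|²` as a complex number -/
def nsq (v : EuclideanSpace ℂ ι) : ℂ := ∑ i, conj (v i) * v i

theorem nsq_eq (v : EuclideanSpace ℂ ι) : nsq v = ((‖v‖ ^ 2 : ℝ) : ℂ) := by
  rw [EuclideanSpace.norm_sq_eq, nsq]
  push_cast
  refine Finset.sum_congr rfl fun i _ => ?_
  rw [mul_comm, Complex.mul_conj, Complex.normSq_eq_norm_sq]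
  push_cast
  rfl

theorem nsq_ne_zero {v : EuclideanSpace ℂ ι} (hv : v ≠ 0) : nsq v ≠ 0 := by
  rw [nsq_eq]
  have : ‖v‖ ^ 2 ≠ 0 := pow_ne_zero _ (norm_ne_zero_iff.2 hv)
  exact_mod_cast this

/-- the family of linear maps `v ↦ χ ⟨s, v⟩ / |s|² e_none + (1 - χ) P v` -/
def surgT (L : LB X ι) (χ : X → ℂ) (s : X → EuclideanSpace ℂ ι) (x : X) :
    Matrix (Option ι) ι ℂ :=
  Matrix.of fun p j => match p with
    | none => χ x * ((nsq (s x))⁻¹ * conj (s x j))
    | some i => (1 - χ x) * L.P x i j

section

variable (L : LB X ι) (χ : X → ℂ) (s : X → EuclideanSpace ℂ ι) (x : X)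

theorem surgT_none (j : ι) : surgT L χ s x none j = χ x * ((nsq (s x))⁻¹ * conj (s x j)) := rfl

theorem surgT_some (i j : ι) : surgT L χ s x (some i) j = (1 - χ x) * L.P x i j := rfl

variable {L χ s x}

/-- `T v` for a vector of the fibre -/
theorem surgT_apply_none (v : EuclideanSpace ℂ ι) :
    mL (surgT L χ s x) v none = χ x * ((nsq (s x))⁻¹ * ∑ j, conj (s x j) * v j) := by
  rw [mL_apply, Finset.mul_sum, Finset.mul_sum]
  exact Finset.sum_congr rfl fun j _ => by rw [surgT_none]; ring

theorem surgT_apply_some {v : EuclideanSpace ℂ ι} (hv : act (L.P x) v = v) (i : ι) :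
    mL (surgT L χ s x) v (some i) = (1 - χ x) * v i := by
  rw [mL_apply]
  conv_rhs => rw [← hv]
  rw [act_apply, Finset.mul_sum]
  exact Finset.sum_congr rfl fun j _ => by rw [surgT_some]; ring

theorem surgT_s_none (hs : s x ≠ 0) : mL (surgT L χ s x) (s x) none = χ x := by
  rw [surgT_apply_none]
  have : (∑ j, conj (s x j) * s x j) = nsq (s x) := rfl
  rw [this, inv_mul_cancel₀ (nsq_ne_zero hs), mul_one]

/-- where `χ = 1`: `T s = e_none` -/
theorem surgT_s_one (hP : act (L.P x) (s x) = s x) (hs : s x ≠ 0) (hχ : χ x = 1) :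
    mL (surgT L χ s x) (s x) = EuclideanSpace.single none 1 := by
  ext p
  cases p with
  | none => rw [surgT_s_none hs, hχ]; simp
  | some i => rw [surgT_apply_some hP, hχ]; simp

/-- where `χ = 0`: `T v = (0, v)` -/
theorem surgT_zero_none (hχ : χ x = 0) (v : EuclideanSpace ℂ ι) :
    mL (surgT L χ s x) v none = 0 := by
  rw [surgT_apply_none, hχ, zero_mul]

theorem surgT_zero_some (hχ : χ x = 0) {v : EuclideanSpace ℂ ι} (hv : act (L.P x) v = v) (i : ι) :
    mL (surgT L χ s x) v (some i) = v i := by
  rw [surgT_apply_some hv, hχ, sub_zero, one_mul]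

theorem norm_surgT_zero (hχ : χ x = 0) {v : EuclideanSpace ℂ ι} (hv : act (L.P x) v = v) :
    ‖mL (surgT L χ s x) v‖ = ‖v‖ := by
  have h : ‖mL (surgT L χ s x) v‖ ^ 2 = ‖v‖ ^ 2 := by
    rw [EuclideanSpace.norm_sq_eq, EuclideanSpace.norm_sq_eq, Fintype.sum_option,
      surgT_zero_none hχ]
    simp only [surgT_zero_some hχ hv, norm_zero, ne_eq, OfNat.ofNat_ne_zero, not_false_eq_true,
      zero_pow, zero_add]
  exact (pow_left_inj₀ (norm_nonneg _) (norm_nonneg _) two_ne_zero).1 h

/-- the data for the surgery -/
structure SurgData (L : LB X ι) (χ : X → ℂ) (s : X → EuclideanSpace ℂ ι) : Prop where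
  reg : Reg0 ∞ 0 s
  sec : L.Sec s
  χreg : Reg0 ∞ 0 χ
  supp : ∀ x, s x ≠ 0 ∨ ∀ᶠ y in 𝓝 x, χ y = 0

variable [IsManifold 𝓘(ℂ, C2) ω X]

theorem SurgData.ne (h : SurgData L χ s) {x : X} (hx : χ x ≠ 0) : s x ≠ 0 :=
  (h.supp x).resolve_right fun h0 => hx h0.self_of_nhds

theorem SurgData.push (h : SurgData L χ s) : L.PushData (surgT L χ s) where
  smooth p j := by
    cases p with
    | none =>
      refine reg0_iff_at.2 fun x => ?_
      rcases h.supp x with hx | hx
      · have h1 : At0 ∞ 0 (fun y => nsq (s y)) x :=
          At0.sum fun i _ => (At0.conj ((h.reg.at x).clm (ev i))).mul ((h.reg.at x).clm (ev i))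
        exact (h.χreg.at x).mul ((h1.inv0 (nsq_ne_zero hx)).mul
          (At0.conj ((h.reg.at x).clm (ev j))))
      · refine (at0_zero (V := ℂ) (n := ∞) (κ := 0) (x := x)).congr ?_
        filter_upwards [hx] with y hy
        rw [surgT_none, hy, zero_mul]
    | some i =>
      refine reg0_iff_at.2 fun x => ?_
      exact ((at0_const (V := ℂ) (c := 1)).sub (h.χreg.at x)).mul (L.atP le_rfl x i j)
  mulP x := by
    ext p j
    cases p with
    | none =>
      rw [Matrix.mul_apply]
      by_cases hx : χ x = 0
      · simp only [surgT_none, hx, zero_mul, Finset.sum_const_zero]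
      · have h1 : ∀ k, surgT L χ s x none k * L.P x k j =
            χ x * ((nsq (s x))⁻¹ * (conj (s x k) * L.P x k j)) := by
          intro k
          rw [surgT_none]
          ring
        rw [Finset.sum_congr rfl fun k _ => h1 k, ← Finset.mul_sum, ← Finset.mul_sum, surgT_none]
        congr 2
        have h2 : s x j = ∑ k, L.P x j k * s x k := by
          conv_lhs => rw [← h.sec x]
          rw [act_apply]
        have h3 : ∀ k, conj (L.P x j k) = L.P x k j := by
          intro k
          have := congrFun (congrFun (L.herm x) k) j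
          rw [Matrix.conjTranspose_apply] at this
          exact this
        conv_rhs => rw [h2]
        rw [map_sum]
        exact Finset.sum_congr rfl fun k _ => by rw [map_mul, h3]; ring
    | some i =>
      rw [Matrix.mul_apply, surgT_some]
      have h1 : ∀ k, surgT L χ s x (some i) k * L.P x k j =
          (1 - χ x) * (L.P x i k * L.P x k j) := by
        intro k
        rw [surgT_some]
        ring
      rw [Finset.sum_congr rfl fun k _ => h1 k, ← Finset.mul_sum, ← Matrix.mul_apply, L.idem]
  ne x := by
    intro h0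
    by_cases hx : χ x = 0
    · have h1 : L.P x = 0 := by
        ext i j
        have := congrFun (congrFun h0 (some i)) j
        rw [surgT_some, hx, sub_zero, one_mul] at this
        exact this
      have h2 := L.tr x
      rw [h1, Matrix.trace_zero] at h2
      exact zero_ne_one h2
    · have hsx := h.ne hx
      apply hx
      have h1 := surgT_s_none (L := L) (χ := χ) (s := s) (x := x) hsx
      rw [h0] at h1
      rw [← h1, mL_apply]
      simp

/-- the new bundle -/
def surg (h : SurgData L χ s) : LB X (Option ι) := LB.push h.push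

/-- its holomorphic structure -/
def surgA (L : LB X ι) (χ : X → ℂ) (s : X → EuclideanSpace ℂ ι) (a : X → Fin 2 → ℂ) :
    X → Fin 2 → ℂ := pushA a (surgT L χ s)

/-- the isomorphism -/
def surgIso (h : SurgData L χ s) (a : X → Fin 2 → ℂ) :
    H662.LIso L a (surg h) (surgA L χ s a) 0 := pushIso h.push a

theorem surgIso_t (h : SurgData L χ s) (a : X → Fin 2 → ℂ) (x : X) :
    (surgIso h a).t x = mL (surgT L χ s x) := rfl

theorem IsHol.surg {a : X → Fin 2 → ℂ} (ha : L.IsHol a) (h : SurgData L χ s) :
    (surg h).IsHol (surgA L χ s a) := ha.push h.push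

/-- where `χ = 1` the new bundle is the trivial bundle -/
theorem surg_P_one (h : SurgData L χ s) {x : X} (hx : χ x = 1) :
    (surg h).P x = Matrix.single none none 1 := by
  have hsx : s x ≠ 0 := h.ne (by rw [hx]; exact one_ne_zero)
  have h1 := (surgIso h 0).t_P x (s x)
  rw [h.sec x, surgIso_t, surgT_s_one (h.sec x) hsx hx] at h1
  -- a projector of trace one containing `e_none`
  obtain ⟨v, hv, hv1⟩ := (surg h).exists_vec x
  have h2 : ∀ p, v p * conj (v none) = if p = none then 1 else 0 := by
    intro p
    have := congrArg (fun w : EuclideanSpace ℂ (Option ι) => w p) h1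
    simp only [act_apply, PiLp.single_apply, mul_ite, mul_one, mul_zero, Finset.sum_ite_eq',
      Finset.mem_univ, if_true] at this
    rw [← hv, this]
  have hn : conj (v none) ≠ 0 := by
    intro h0
    have := h2 none
    rw [h0, mul_zero, if_pos rfl] at this
    exact zero_ne_one this
  have h3 : ∀ p, p ≠ none → v p = 0 := by
    intro p hp
    have := h2 p
    rw [if_neg hp] at this
    exact (mul_eq_zero.1 this).resolve_right hn
  ext p q
  rw [hv]
  by_cases hp : p = none
  · by_cases hq : q = none
    · subst hp; subst hq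
      rw [h2 none, if_pos rfl]
      simp
    · rw [h3 q hq, map_zero, mul_zero, Matrix.single_apply_of_col_ne]
      exact fun h => hq h.symm
  · rw [h3 p hp, zero_mul, Matrix.single_apply_of_row_ne]
    exact fun h => hp h.symm

/-- where `χ = 1` near the point the new connection form vanishes -/
theorem surgA_one (h : SurgData L χ s) {a : X → Fin 2 → ℂ} {x : X}
    (h0 : ∀ i, L.db0 a 0 s x i = 0) (hx : ∀ᶠ y in 𝓝 x, χ y = 1) (i : Fin 2) :
    surgA L χ s a x i = 0 := by
  have hx1 := hx.self_of_nhds
  have hsx : s x ≠ 0 := h.ne (by rw [hx1]; exact one_ne_zero)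
  have h1 := (surgIso h a).db0_t (κ := 0) ((h.reg.at x).of_le (by simp)) (h.sec x) i
  rw [h0 i, map_zero] at h1
  have h2 : (fun y => (surgIso h a).t y (s y)) =ᶠ[𝓝 x]
      fun _ => (EuclideanSpace.single none 1 : EuclideanSpace ℂ (Option ι)) := by
    filter_upwards [hx] with y hy
    rw [surgIso_t, surgT_s_one (h.sec y) (h.ne (by rw [hy]; exact one_ne_zero)) hy]
  rw [db0_congr h2, LB.db0] at h1
  have h3 : dbar0 (0 + 0) (fun _ : X => (EuclideanSpace.single none 1 :
      EuclideanSpace ℂ (Option ι))) x i = 0 := by
    rw [add_zero, dbar0_const]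
    rfl
  rw [h3, act_zero, zero_add] at h1
  have h4 : (EuclideanSpace.single none 1 : EuclideanSpace ℂ (Option ι)) ≠ 0 := by
    intro h5
    have := congrArg (fun w : EuclideanSpace ℂ (Option ι) => w none) h5
    simp at this
  exact (smul_eq_zero.1 h1).resolve_right h4

theorem hs_surgT_zero {x : X} (hx : χ x = 0) : hs (surgT L χ s x) = 1 := by
  rw [hs, Fintype.sum_option]
  have h1 : ∑ j, conj (surgT L χ s x none j) * surgT L χ s x none j = 0 :=
    Finset.sum_eq_zero fun j _ => by rw [surgT_none, hx]; simp
  have h2 : ∑ i, ∑ j, conj (surgT L χ s x (some i) j) * surgT L χ s x (some i) j =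
      hs (L.P x) := by
    refine Finset.sum_congr rfl fun i _ => Finset.sum_congr rfl fun j _ => ?_
    rw [surgT_some, hx, sub_zero, one_mul]
  rw [h1, h2, zero_add, hs_eq, L.herm, L.idem, L.tr]

/-- where `χ = 0` the new bundle is the old one -/
theorem surg_P_zero (h : SurgData L χ s) {x : X} (hx : χ x = 0) (i j : ι) :
    (surg h).P x (some i) (some j) = L.P x i j := by
  have h1 : (surg h).P x = (hs (surgT L χ s x))⁻¹ • (surgT L χ s x * (surgT L χ s x)ᴴ) := rfl
  rw [h1, hs_surgT_zero hx, inv_one, one_smul, Matrix.mul_apply]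
  have h2 : ∀ k, surgT L χ s x (some i) k * (surgT L χ s x)ᴴ k (some j) =
      L.P x i k * L.P x k j := by
    intro k
    have h3 : conj (L.P x j k) = L.P x k j := by
      have := congrFun (congrFun (L.herm x) k) j
      rw [Matrix.conjTranspose_apply] at this
      exact this
    rw [Matrix.conjTranspose_apply, surgT_some, surgT_some, hx, sub_zero, one_mul, one_mul]
    change L.P x i k * conj (L.P x j k) = _
    rw [h3]
  rw [Finset.sum_congr rfl fun k _ => h2 k, ← Matrix.mul_apply, L.idem]

theorem surg_P_zero_none (h : SurgData L χ s) {x : X} (hx : χ x = 0) (p : Option ι) :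
    (surg h).P x none p = 0 ∧ (surg h).P x p none = 0 := by
  have h1 : (surg h).P x = (hs (surgT L χ s x))⁻¹ • (surgT L χ s x * (surgT L χ s x)ᴴ) := rfl
  have h2 : ∀ k, surgT L χ s x none k = 0 := fun k => by rw [surgT_none, hx, zero_mul]
  rw [h1]
  constructor
  · rw [Matrix.smul_apply, Matrix.mul_apply, Finset.sum_eq_zero fun k _ => by rw [h2, zero_mul],
      smul_zero]
  · rw [Matrix.smul_apply, Matrix.mul_apply, Finset.sum_eq_zero fun k _ => by
      rw [Matrix.conjTranspose_apply, h2, star_zero, mul_zero], smul_zero]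

/-- where `χ = 0` near the point the connection form is the old one -/
theorem surgA_zero (h : SurgData L χ s) (a : X → Fin 2 → ℂ) {x : X}
    (hx : ∀ᶠ y in 𝓝 x, χ y = 0) (i : Fin 2) : surgA L χ s a x i = a x i := by
  have h1 : pushB (surgT L χ s) x i = 0 := by
    have h2 := push_dbT h.push x i
    have hx0 := hx.self_of_nhds
    rw [pushB]
    have h3 : dbT (surgT L χ s) x i = Matrix.of fun p j => match p with
        | none => 0
        | some k => dbM L.P x i k j := by
      ext p j
      cases p with
      | none =>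
        change dbar0 0 (fun y => surgT L χ s y none j) x i = 0
        have h4 : (fun y => surgT L χ s y none j) =ᶠ[𝓝 x] fun _ => (0 : ℂ) := by
          filter_upwards [hx] with y hy
          rw [surgT_none, hy, zero_mul]
        rw [dbar0_congr h4, dbar0_const]
        rfl
      | some k =>
        change dbar0 0 (fun y => surgT L χ s y (some k) j) x i = dbar0 0 (fun y => L.P y k j) x i
        have h4 : (fun y => surgT L χ s y (some k) j) =ᶠ[𝓝 x] fun y => L.P y k j := by
          filter_upwards [hx] with y hy
          rw [surgT_some, hy, sub_zero, one_mul]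
        rw [dbar0_congr h4]
    have h5 : ((surgT L χ s x)ᴴ * dbT (surgT L χ s) x i).trace = (L.P x * dbM L.P x i).trace := by
      rw [h3]
      simp only [Matrix.trace, Matrix.diag_apply, Matrix.mul_apply, Fintype.sum_option,
        Matrix.of_apply, mul_zero, zero_add]
      refine Finset.sum_congr rfl fun j _ => Finset.sum_congr rfl fun k _ => ?_
      have h6 : conj (L.P x k j) = L.P x j k := by
        have := congrFun (congrFun (L.herm x) j) k
        rw [Matrix.conjTranspose_apply] at this
        exact this
      rw [Matrix.conjTranspose_apply, surgT_some, hx0, sub_zero, one_mul]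
      change conj (L.P x k j) * _ = _
      rw [h6]
    rw [h5]
    have h7 : (L.P x * dbM L.P x i).trace = 0 := by
      have h8 := congrArg Matrix.trace (L.P_dbM_P x i)
      rw [Matrix.trace_mul_comm, ← Matrix.mul_assoc, L.idem, Matrix.trace_zero] at h8
      exact h8
    rw [h7, mul_zero]
  rw [surgA, pushA, h1, sub_zero]

/-- the zeros of a section are unchanged -/
theorem surg_eq_zero_iff (h : SurgData L χ s) (a : X → Fin 2 → ℂ) {x : X}
    {v : EuclideanSpace ℂ ι} (hv : act (L.P x) v = v) :
    (surgIso h a).t x v = 0 ↔ v = 0 := by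
  constructor
  · intro h0
    have := (surgIso h a).r_t x v hv
    rw [h0, map_zero] at this
    exact this.symm
  · rintro rfl
    exact map_zero _

end

end Vale.Agent.P267.FL.LB
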